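import Vale.Agent.P236KE.Y100.Cnt

/-!
# P236KE / Y100 : checks (generated)
-/

set_option maxRecDepth 100000

namespace Vale.Agent.P236KE.Y100

noncomputable def g8_1_l : List Gp := [⟨(nat_lit 8), (nat_lit 4), (nat_lit 47), (nat_lit 12), (nat_lit 1), (nat_lit 62), (nat_lit 100), (nat_lit 10), (nat_lit 120), (nat_lit 39)⟩,
  ⟨(nat_lit 12), (nat_lit 5), (nat_lit 25), (nat_lit 10), (nat_lit 1), (nat_lit 73), (nat_lit 86), (nat_lit 4), (nat_lit 40), (nat_lit 14)⟩,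
  ⟨(nat_lit 12), (nat_lit 5), (nat_lit 35), (nat_lit 24), (nat_lit 1), (nat_lit 73), (nat_lit 100), (nat_lit 7), (nat_lit 168), (nat_lit 28)⟩,
  ⟨(nat_lit 17), (nat_lit 9), (nat_lit 35), (nat_lit 24), (nat_lit 1), (nat_lit 87), (nat_lit 100), (nat_lit 4), (nat_lit 96), (nat_lit 14)⟩]

theorem g8_1 : AllB (okG ⟨cf3, d8, e8, m8, g8, h8, (nat_lit 26), (nat_lit 208), (nat_lit 100)⟩ z8) g8_1_l :=
  ⟨by decide +kernel,
  by decide +kernel,
  by decide +kernel,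
  by decide +kernel,
  trivial⟩

noncomputable def g9_0_l : List Gp := [⟨(nat_lit 0), (nat_lit 7), (nat_lit 0), (nat_lit 11), (nat_lit 1), (nat_lit 49), (nat_lit 65), (nat_lit 5), (nat_lit 55), (nat_lit 17)⟩,
  ⟨(nat_lit 0), (nat_lit 7), (nat_lit 11), (nat_lit 17), (nat_lit 1), (nat_lit 49), (nat_lit 77), (nat_lit 8), (nat_lit 136), (nat_lit 29)⟩,
  ⟨(nat_lit 7), (nat_lit 6), (nat_lit 4), (nat_lit 24), (nat_lit 1), (nat_lit 61), (nat_lit 77), (nat_lit 5), (nat_lit 120), (nat_lit 17)⟩,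
  ⟨(nat_lit 0), (nat_lit 3), (nat_lit 28), (nat_lit 16), (nat_lit 1), (nat_lit 49), (nat_lit 89), (nat_lit 11), (nat_lit 176), (nat_lit 41)⟩,
  ⟨(nat_lit 3), (nat_lit 4), (nat_lit 28), (nat_lit 16), (nat_lit 1), (nat_lit 55), (nat_lit 89), (nat_lit 9), (nat_lit 144), (nat_lit 35)⟩,
  ⟨(nat_lit 0), (nat_lit 3), (nat_lit 44), (nat_lit 22), (nat_lit 1), (nat_lit 49), (nat_lit 100), (nat_lit 13), (nat_lit 286), (nat_lit 52)⟩,
  ⟨(nat_lit 3), (nat_lit 4), (nat_lit 44), (nat_lit 22), (nat_lit 1), (nat_lit 55), (nat_lit 100), (nat_lit 12), (nat_lit 264), (nat_lit 46)⟩,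
  ⟨(nat_lit 7), (nat_lit 6), (nat_lit 28), (nat_lit 16), (nat_lit 1), (nat_lit 61), (nat_lit 89), (nat_lit 8), (nat_lit 128), (nat_lit 29)⟩,
  ⟨(nat_lit 7), (nat_lit 3), (nat_lit 44), (nat_lit 22), (nat_lit 1), (nat_lit 61), (nat_lit 100), (nat_lit 10), (nat_lit 220), (nat_lit 40)⟩,
  ⟨(nat_lit 10), (nat_lit 3), (nat_lit 44), (nat_lit 22), (nat_lit 1), (nat_lit 67), (nat_lit 100), (nat_lit 9), (nat_lit 198), (nat_lit 34)⟩,
  ⟨(nat_lit 13), (nat_lit 10), (nat_lit 32), (nat_lit 34), (nat_lit 1), (nat_lit 81), (nat_lit 100), (nat_lit 5), (nat_lit 170), (nat_lit 20)⟩]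

theorem g9_0 : AllB (okG ⟨cf3, d9, e9, m9, g9, h9, (nat_lit 26), (nat_lit 208), (nat_lit 100)⟩ z9) g9_0_l :=
  ⟨by decide +kernel,
  by decide +kernel,
  by decide +kernel,
  by decide +kernel,
  by decide +kernel,
  by decide +kernel,
  by decide +kernel,
  by decide +kernel,
  by decide +kernel,
  by decide +kernel,
  by decide +kernel,
  trivial⟩

noncomputable def g10_0_l : List Gp := [⟨(nat_lit 0), (nat_lit 11), (nat_lit 0), (nat_lit 21), (nat_lit 1), (nat_lit 54), (nat_lit 79), (nat_lit 7), (nat_lit 147), (nat_lit 26)⟩,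
  ⟨(nat_lit 0), (nat_lit 5), (nat_lit 21), (nat_lit 12), (nat_lit 1), (nat_lit 54), (nat_lit 89), (nat_lit 9), (nat_lit 108), (nat_lit 36)⟩,
  ⟨(nat_lit 0), (nat_lit 5), (nat_lit 33), (nat_lit 10), (nat_lit 1), (nat_lit 54), (nat_lit 100), (nat_lit 12), (nat_lit 120), (nat_lit 47)⟩,
  ⟨(nat_lit 5), (nat_lit 6), (nat_lit 21), (nat_lit 12), (nat_lit 1), (nat_lit 66), (nat_lit 89), (nat_lit 6), (nat_lit 72), (nat_lit 24)⟩,
  ⟨(nat_lit 5), (nat_lit 6), (nat_lit 33), (nat_lit 10), (nat_lit 1), (nat_lit 66), (nat_lit 100), (nat_lit 9), (nat_lit 90), (nat_lit 35)⟩,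
  ⟨(nat_lit 11), (nat_lit 10), (nat_lit 16), (nat_lit 27), (nat_lit 1), (nat_lit 78), (nat_lit 100), (nat_lit 6), (nat_lit 162), (nat_lit 23)⟩]

theorem g10_0 : AllB (okG ⟨cf3, d10, e10, m10, g10, h10, (nat_lit 26), (nat_lit 208), (nat_lit 100)⟩ z10) g10_0_l :=
  ⟨by decide +kernel,
  by decide +kernel,
  by decide +kernel,
  by decide +kernel,
  by decide +kernel,
  by decide +kernel,
  trivial⟩

noncomputable def g11_0_l : List Gp := [⟨(nat_lit 0), (nat_lit 12), (nat_lit 0), (nat_lit 17), (nat_lit 1), (nat_lit 58), (nat_lit 85), (nat_lit 7), (nat_lit 119), (nat_lit 28)⟩,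
  ⟨(nat_lit 0), (nat_lit 4), (nat_lit 17), (nat_lit 9), (nat_lit 1), (nat_lit 58), (nat_lit 100), (nat_lit 11), (nat_lit 99), (nat_lit 43)⟩,
  ⟨(nat_lit 4), (nat_lit 8), (nat_lit 17), (nat_lit 9), (nat_lit 1), (nat_lit 71), (nat_lit 100), (nat_lit 8), (nat_lit 72), (nat_lit 30)⟩,
  ⟨(nat_lit 12), (nat_lit 6), (nat_lit 9), (nat_lit 17), (nat_lit 1), (nat_lit 81), (nat_lit 100), (nat_lit 5), (nat_lit 85), (nat_lit 20)⟩]

theorem g11_0 : AllB (okG ⟨cf3, d11, e11, m11, g11, h11, (nat_lit 26), (nat_lit 208), (nat_lit 100)⟩ z11) g11_0_l :=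
  ⟨by decide +kernel,
  by decide +kernel,
  by decide +kernel,
  by decide +kernel,
  trivial⟩

noncomputable def g12_0_l : List Gp := [⟨(nat_lit 0), (nat_lit 9), (nat_lit 0), (nat_lit 7), (nat_lit 1), (nat_lit 70), (nat_lit 86), (nat_lit 5), (nat_lit 46), (nat_lit 17)⟩,
  ⟨(nat_lit 0), (nat_lit 9), (nat_lit 7), (nat_lit 16), (nat_lit 1), (nat_lit 70), (nat_lit 100), (nat_lit 8), (nat_lit 128), (nat_lit 31)⟩,
  ⟨(nat_lit 9), (nat_lit 3), (nat_lit 8), (nat_lit 15), (nat_lit 1), (nat_lit 89), (nat_lit 100), (nat_lit 3), (nat_lit 45), (nat_lit 12)⟩]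

theorem g12_0 : AllB (okG ⟨cf3, d12, e12, m12, g12, h12, (nat_lit 26), (nat_lit 208), (nat_lit 100)⟩ z12) g12_0_l :=
  ⟨by decide +kernel,
  by decide +kernel,
  by decide +kernel,
  trivial⟩

noncomputable def g13_0_l : List Gp := [⟨(nat_lit 0), (nat_lit 9), (nat_lit 0), (nat_lit 11), (nat_lit 1), (nat_lit 75), (nat_lit 99), (nat_lit 7), (nat_lit 77), (nat_lit 25)⟩]

theorem g13_0 : AllB (okG ⟨cf3, d13, e13, m13, g13, h13, (nat_lit 26), (nat_lit 208), (nat_lit 100)⟩ z13) g13_0_l :=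
  ⟨by decide +kernel,
  trivial⟩

noncomputable def g14_0_l : List Gp := [⟨(nat_lit 0), (nat_lit 10), (nat_lit 0), (nat_lit 15), (nat_lit 1), (nat_lit 79), (nat_lit 100), (nat_lit 6), (nat_lit 90), (nat_lit 22)⟩]

theorem g14_0 : AllB (okG ⟨cf3, d14, e14, m14, g14, h14, (nat_lit 26), (nat_lit 208), (nat_lit 100)⟩ z14) g14_0_l :=
  ⟨by decide +kernel,
  trivial⟩

noncomputable def g15_0_l : List Gp := [⟨(nat_lit 0), (nat_lit 9), (nat_lit 0), (nat_lit 9), (nat_lit 1), (nat_lit 85), (nat_lit 100), (nat_lit 4), (nat_lit 37), (nat_lit 16)⟩]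

theorem g15_0 : AllB (okG ⟨cf3, d15, e15, m15, g15, h15, (nat_lit 26), (nat_lit 208), (nat_lit 100)⟩ z15) g15_0_l :=
  ⟨by decide +kernel,
  trivial⟩

noncomputable def g16_0_l : List Gp := [⟨(nat_lit 0), (nat_lit 5), (nat_lit 0), (nat_lit 2), (nat_lit 1), (nat_lit 90), (nat_lit 100), (nat_lit 3), (nat_lit 16), (nat_lit 11)⟩]

theorem g16_0 : AllB (okG ⟨cf3, d16, e16, m16, g16, h16, (nat_lit 26), (nat_lit 208), (nat_lit 100)⟩ z16) g16_0_l :=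
  ⟨by decide +kernel,
  trivial⟩

end Vale.Agent.P236KE.Y100
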