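import Vale.Agent.P236KE.Y100.Def

/-!
# P236KE / Y100 : checks (generated)
-/

set_option maxRecDepth 100000

namespace Vale.Agent.P236KE.Y100

noncomputable def k4_1_l : List Gp := [⟨(nat_lit 18), (nat_lit 4), (nat_lit 34), (nat_lit 6), (nat_lit 1), (nat_lit 60), (nat_lit 100), (nat_lit 11), (nat_lit 66), (nat_lit 41)⟩,
  ⟨(nat_lit 22), (nat_lit 7), (nat_lit 34), (nat_lit 6), (nat_lit 1), (nat_lit 69), (nat_lit 100), (nat_lit 8), (nat_lit 57), (nat_lit 32)⟩,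
  ⟨(nat_lit 29), (nat_lit 13), (nat_lit 28), (nat_lit 12), (nat_lit 1), (nat_lit 82), (nat_lit 100), (nat_lit 5), (nat_lit 66), (nat_lit 19)⟩]

theorem k4_1 : AllB (okS k4 [t4]) k4_1_l :=
  ⟨by decide +kernel,
  by decide +kernel,
  by decide +kernel,
  trivial⟩

noncomputable def k5_0_l : List Gp := [⟨(nat_lit 0), (nat_lit 8), (nat_lit 0), (nat_lit 6), (nat_lit 1), (nat_lit 22), (nat_lit 53), (nat_lit 8), (nat_lit 65), (nat_lit 32)⟩,
  ⟨(nat_lit 0), (nat_lit 2), (nat_lit 6), (nat_lit 4), (nat_lit 1), (nat_lit 22), (nat_lit 69), (nat_lit 12), (nat_lit 48), (nat_lit 48)⟩,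
  ⟨(nat_lit 2), (nat_lit 6), (nat_lit 6), (nat_lit 4), (nat_lit 1), (nat_lit 31), (nat_lit 69), (nat_lit 10), (nat_lit 61), (nat_lit 39)⟩,
  ⟨(nat_lit 8), (nat_lit 8), (nat_lit 1), (nat_lit 9), (nat_lit 1), (nat_lit 40), (nat_lit 69), (nat_lit 8), (nat_lit 72), (nat_lit 30)⟩,
  ⟨(nat_lit 0), (nat_lit 2), (nat_lit 10), (nat_lit 6), (nat_lit 1), (nat_lit 22), (nat_lit 79), (nat_lit 15), (nat_lit 90), (nat_lit 58)⟩,
  ⟨(nat_lit 0), (nat_lit 2), (nat_lit 16), (nat_lit 6), (nat_lit 1), (nat_lit 22), (nat_lit 86), (nat_lit 17), (nat_lit 102), (nat_lit 65)⟩,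
  ⟨(nat_lit 2), (nat_lit 6), (nat_lit 10), (nat_lit 6), (nat_lit 1), (nat_lit 31), (nat_lit 79), (nat_lit 13), (nat_lit 79), (nat_lit 49)⟩,
  ⟨(nat_lit 2), (nat_lit 6), (nat_lit 16), (nat_lit 6), (nat_lit 1), (nat_lit 31), (nat_lit 86), (nat_lit 14), (nat_lit 85), (nat_lit 56)⟩,
  ⟨(nat_lit 0), (nat_lit 2), (nat_lit 22), (nat_lit 8), (nat_lit 1), (nat_lit 22), (nat_lit 99), (nat_lit 20), (nat_lit 160), (nat_lit 78)⟩,
  ⟨(nat_lit 2), (nat_lit 2), (nat_lit 22), (nat_lit 5), (nat_lit 1), (nat_lit 31), (nat_lit 93), (nat_lit 16), (nat_lit 80), (nat_lit 63)⟩,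
  ⟨(nat_lit 4), (nat_lit 4), (nat_lit 22), (nat_lit 5), (nat_lit 1), (nat_lit 35), (nat_lit 93), (nat_lit 15), (nat_lit 75), (nat_lit 59)⟩,
  ⟨(nat_lit 2), (nat_lit 2), (nat_lit 27), (nat_lit 3), (nat_lit 1), (nat_lit 31), (nat_lit 99), (nat_lit 18), (nat_lit 54), (nat_lit 69)⟩,
  ⟨(nat_lit 4), (nat_lit 4), (nat_lit 27), (nat_lit 3), (nat_lit 1), (nat_lit 35), (nat_lit 99), (nat_lit 17), (nat_lit 69), (nat_lit 65)⟩,
  ⟨(nat_lit 8), (nat_lit 8), (nat_lit 10), (nat_lit 12), (nat_lit 1), (nat_lit 40), (nat_lit 86), (nat_lit 12), (nat_lit 144), (nat_lit 47)⟩,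
  ⟨(nat_lit 8), (nat_lit 7), (nat_lit 22), (nat_lit 8), (nat_lit 1), (nat_lit 40), (nat_lit 99), (nat_lit 15), (nat_lit 120), (nat_lit 60)⟩,
  ⟨(nat_lit 15), (nat_lit 1), (nat_lit 22), (nat_lit 8), (nat_lit 1), (nat_lit 57), (nat_lit 99), (nat_lit 11), (nat_lit 88), (nat_lit 43)⟩,
  ⟨(nat_lit 16), (nat_lit 17), (nat_lit 8), (nat_lit 10), (nat_lit 1), (nat_lit 62), (nat_lit 81), (nat_lit 5), (nat_lit 86), (nat_lit 20)⟩,
  ⟨(nat_lit 16), (nat_lit 7), (nat_lit 18), (nat_lit 12), (nat_lit 1), (nat_lit 62), (nat_lit 99), (nat_lit 10), (nat_lit 120), (nat_lit 38)⟩,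
  ⟨(nat_lit 23), (nat_lit 10), (nat_lit 18), (nat_lit 12), (nat_lit 1), (nat_lit 72), (nat_lit 99), (nat_lit 7), (nat_lit 84), (nat_lit 28)⟩,
  ⟨(nat_lit 33), (nat_lit 12), (nat_lit 18), (nat_lit 12), (nat_lit 1), (nat_lit 82), (nat_lit 99), (nat_lit 5), (nat_lit 61), (nat_lit 18)⟩]

theorem k5_0 : AllB (okS k5 [t5]) k5_0_l :=
  ⟨by decide +kernel,
  by decide +kernel,
  by decide +kernel,
  by decide +kernel,
  by decide +kernel,
  by decide +kernel,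
  by decide +kernel,
  by decide +kernel,
  by decide +kernel,
  by decide +kernel,
  by decide +kernel,
  by decide +kernel,
  by decide +kernel,
  by decide +kernel,
  by decide +kernel,
  by decide +kernel,
  by decide +kernel,
  by decide +kernel,
  by decide +kernel,
  by decide +kernel,
  trivial⟩

noncomputable def k6_0_l : List Gp := [⟨(nat_lit 0), (nat_lit 9), (nat_lit 0), (nat_lit 12), (nat_lit 1), (nat_lit 34), (nat_lit 67), (nat_lit 9), (nat_lit 108), (nat_lit 34)⟩,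
  ⟨(nat_lit 9), (nat_lit 4), (nat_lit 4), (nat_lit 8), (nat_lit 1), (nat_lit 53), (nat_lit 67), (nat_lit 4), (nat_lit 32), (nat_lit 15)⟩,
  ⟨(nat_lit 0), (nat_lit 5), (nat_lit 12), (nat_lit 5), (nat_lit 1), (nat_lit 34), (nat_lit 86), (nat_lit 14), (nat_lit 71), (nat_lit 53)⟩,
  ⟨(nat_lit 5), (nat_lit 4), (nat_lit 12), (nat_lit 5), (nat_lit 1), (nat_lit 41), (nat_lit 86), (nat_lit 12), (nat_lit 60), (nat_lit 46)⟩,
  ⟨(nat_lit 0), (nat_lit 5), (nat_lit 17), (nat_lit 5), (nat_lit 1), (nat_lit 34), (nat_lit 93), (nat_lit 15), (nat_lit 76), (nat_lit 60)⟩,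
  ⟨(nat_lit 0), (nat_lit 3), (nat_lit 22), (nat_lit 4), (nat_lit 1), (nat_lit 34), (nat_lit 99), (nat_lit 17), (nat_lit 68), (nat_lit 66)⟩,
  ⟨(nat_lit 3), (nat_lit 2), (nat_lit 22), (nat_lit 4), (nat_lit 1), (nat_lit 39), (nat_lit 99), (nat_lit 16), (nat_lit 64), (nat_lit 61)⟩,
  ⟨(nat_lit 5), (nat_lit 4), (nat_lit 17), (nat_lit 9), (nat_lit 1), (nat_lit 41), (nat_lit 99), (nat_lit 15), (nat_lit 135), (nat_lit 59)⟩,
  ⟨(nat_lit 9), (nat_lit 4), (nat_lit 12), (nat_lit 5), (nat_lit 1), (nat_lit 53), (nat_lit 86), (nat_lit 9), (nat_lit 45), (nat_lit 34)⟩,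
  ⟨(nat_lit 9), (nat_lit 4), (nat_lit 17), (nat_lit 9), (nat_lit 1), (nat_lit 53), (nat_lit 99), (nat_lit 12), (nat_lit 108), (nat_lit 47)⟩,
  ⟨(nat_lit 13), (nat_lit 7), (nat_lit 12), (nat_lit 14), (nat_lit 1), (nat_lit 69), (nat_lit 99), (nat_lit 8), (nat_lit 112), (nat_lit 31)⟩,
  ⟨(nat_lit 20), (nat_lit 9), (nat_lit 13), (nat_lit 13), (nat_lit 1), (nat_lit 76), (nat_lit 99), (nat_lit 6), (nat_lit 78), (nat_lit 24)⟩,
  ⟨(nat_lit 29), (nat_lit 10), (nat_lit 16), (nat_lit 10), (nat_lit 1), (nat_lit 85), (nat_lit 99), (nat_lit 4), (nat_lit 41), (nat_lit 15)⟩]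

theorem k6_0 : AllB (okS k6 [t6]) k6_0_l :=
  ⟨by decide +kernel,
  by decide +kernel,
  by decide +kernel,
  by decide +kernel,
  by decide +kernel,
  by decide +kernel,
  by decide +kernel,
  by decide +kernel,
  by decide +kernel,
  by decide +kernel,
  by decide +kernel,
  by decide +kernel,
  by decide +kernel,
  trivial⟩

noncomputable def k7_0_l : List Gp := [⟨(nat_lit 0), (nat_lit 10), (nat_lit 0), (nat_lit 13), (nat_lit 1), (nat_lit 39), (nat_lit 72), (nat_lit 9), (nat_lit 117), (nat_lit 34)⟩,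
  ⟨(nat_lit 0), (nat_lit 3), (nat_lit 13), (nat_lit 3), (nat_lit 1), (nat_lit 39), (nat_lit 90), (nat_lit 13), (nat_lit 40), (nat_lit 52)⟩,
  ⟨(nat_lit 3), (nat_lit 3), (nat_lit 13), (nat_lit 3), (nat_lit 1), (nat_lit 47), (nat_lit 90), (nat_lit 11), (nat_lit 34), (nat_lit 44)⟩,
  ⟨(nat_lit 0), (nat_lit 3), (nat_lit 16), (nat_lit 7), (nat_lit 1), (nat_lit 39), (nat_lit 99), (nat_lit 16), (nat_lit 112), (nat_lit 61)⟩,
  ⟨(nat_lit 3), (nat_lit 3), (nat_lit 16), (nat_lit 7), (nat_lit 1), (nat_lit 47), (nat_lit 99), (nat_lit 14), (nat_lit 98), (nat_lit 53)⟩,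
  ⟨(nat_lit 6), (nat_lit 4), (nat_lit 13), (nat_lit 10), (nat_lit 1), (nat_lit 58), (nat_lit 99), (nat_lit 11), (nat_lit 110), (nat_lit 42)⟩,
  ⟨(nat_lit 10), (nat_lit 12), (nat_lit 13), (nat_lit 10), (nat_lit 1), (nat_lit 73), (nat_lit 99), (nat_lit 7), (nat_lit 85), (nat_lit 27)⟩,
  ⟨(nat_lit 22), (nat_lit 8), (nat_lit 15), (nat_lit 8), (nat_lit 1), (nat_lit 87), (nat_lit 99), (nat_lit 4), (nat_lit 33), (nat_lit 13)⟩]

theorem k7_0 : AllB (okS k7 [t7]) k7_0_l :=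
  ⟨by decide +kernel,
  by decide +kernel,
  by decide +kernel,
  by decide +kernel,
  by decide +kernel,
  by decide +kernel,
  by decide +kernel,
  by decide +kernel,
  trivial⟩

noncomputable def k8_0_l : List Gp := [⟨(nat_lit 0), (nat_lit 12), (nat_lit 0), (nat_lit 11), (nat_lit 1), (nat_lit 43), (nat_lit 74), (nat_lit 8), (nat_lit 97), (nat_lit 32)⟩,
  ⟨(nat_lit 0), (nat_lit 5), (nat_lit 11), (nat_lit 4), (nat_lit 1), (nat_lit 43), (nat_lit 85), (nat_lit 11), (nat_lit 56), (nat_lit 43)⟩,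
  ⟨(nat_lit 0), (nat_lit 2), (nat_lit 15), (nat_lit 6), (nat_lit 1), (nat_lit 43), (nat_lit 100), (nat_lit 15), (nat_lit 90), (nat_lit 58)⟩,
  ⟨(nat_lit 2), (nat_lit 3), (nat_lit 15), (nat_lit 6), (nat_lit 1), (nat_lit 51), (nat_lit 100), (nat_lit 13), (nat_lit 78), (nat_lit 50)⟩,
  ⟨(nat_lit 5), (nat_lit 7), (nat_lit 11), (nat_lit 4), (nat_lit 1), (nat_lit 56), (nat_lit 85), (nat_lit 8), (nat_lit 57), (nat_lit 30)⟩,
  ⟨(nat_lit 5), (nat_lit 3), (nat_lit 15), (nat_lit 6), (nat_lit 1), (nat_lit 56), (nat_lit 100), (nat_lit 12), (nat_lit 72), (nat_lit 45)⟩,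
  ⟨(nat_lit 8), (nat_lit 4), (nat_lit 15), (nat_lit 6), (nat_lit 1), (nat_lit 62), (nat_lit 100), (nat_lit 10), (nat_lit 60), (nat_lit 39)⟩,
  ⟨(nat_lit 12), (nat_lit 14), (nat_lit 9), (nat_lit 12), (nat_lit 1), (nat_lit 73), (nat_lit 100), (nat_lit 7), (nat_lit 99), (nat_lit 28)⟩]

theorem k8_0 : AllB (okS k8 [t8]) k8_0_l :=
  ⟨by decide +kernel,
  by decide +kernel,
  by decide +kernel,
  by decide +kernel,
  by decide +kernel,
  by decide +kernel,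
  by decide +kernel,
  by decide +kernel,
  trivial⟩

noncomputable def k9_0_l : List Gp := [⟨(nat_lit 0), (nat_lit 13), (nat_lit 0), (nat_lit 12), (nat_lit 1), (nat_lit 49), (nat_lit 79), (nat_lit 8), (nat_lit 105), (nat_lit 31)⟩,
  ⟨(nat_lit 0), (nat_lit 3), (nat_lit 12), (nat_lit 6), (nat_lit 1), (nat_lit 49), (nat_lit 100), (nat_lit 13), (nat_lit 78), (nat_lit 52)⟩,
  ⟨(nat_lit 3), (nat_lit 4), (nat_lit 12), (nat_lit 6), (nat_lit 1), (nat_lit 55), (nat_lit 100), (nat_lit 12), (nat_lit 72), (nat_lit 46)⟩,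
  ⟨(nat_lit 7), (nat_lit 6), (nat_lit 12), (nat_lit 6), (nat_lit 1), (nat_lit 61), (nat_lit 100), (nat_lit 10), (nat_lit 61), (nat_lit 40)⟩,
  ⟨(nat_lit 13), (nat_lit 10), (nat_lit 12), (nat_lit 6), (nat_lit 1), (nat_lit 81), (nat_lit 100), (nat_lit 5), (nat_lit 51), (nat_lit 20)⟩]

theorem k9_0 : AllB (okS k9 [t9]) k9_0_l :=
  ⟨by decide +kernel,
  by decide +kernel,
  by decide +kernel,
  by decide +kernel,
  by decide +kernel,
  trivial⟩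

noncomputable def k10_0_l : List Gp := [⟨(nat_lit 0), (nat_lit 11), (nat_lit 0), (nat_lit 9), (nat_lit 1), (nat_lit 54), (nat_lit 83), (nat_lit 8), (nat_lit 89), (nat_lit 30)⟩,
  ⟨(nat_lit 0), (nat_lit 5), (nat_lit 9), (nat_lit 3), (nat_lit 1), (nat_lit 54), (nat_lit 97), (nat_lit 11), (nat_lit 56), (nat_lit 44)⟩,
  ⟨(nat_lit 5), (nat_lit 6), (nat_lit 9), (nat_lit 3), (nat_lit 1), (nat_lit 66), (nat_lit 97), (nat_lit 8), (nat_lit 49), (nat_lit 32)⟩,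
  ⟨(nat_lit 11), (nat_lit 9), (nat_lit 6), (nat_lit 6), (nat_lit 1), (nat_lit 78), (nat_lit 97), (nat_lit 5), (nat_lit 46), (nat_lit 20)⟩]

theorem k10_0 : AllB (okS k10 [t10]) k10_0_l :=
  ⟨by decide +kernel,
  by decide +kernel,
  by decide +kernel,
  by decide +kernel,
  trivial⟩

noncomputable def k11_0_l : List Gp := [⟨(nat_lit 0), (nat_lit 4), (nat_lit 0), (nat_lit 9), (nat_lit 1), (nat_lit 58), (nat_lit 99), (nat_lit 11), (nat_lit 99), (nat_lit 42)⟩,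
  ⟨(nat_lit 4), (nat_lit 7), (nat_lit 0), (nat_lit 9), (nat_lit 1), (nat_lit 71), (nat_lit 99), (nat_lit 8), (nat_lit 72), (nat_lit 29)⟩,
  ⟨(nat_lit 11), (nat_lit 6), (nat_lit 2), (nat_lit 7), (nat_lit 1), (nat_lit 79), (nat_lit 99), (nat_lit 6), (nat_lit 42), (nat_lit 21)⟩]

theorem k11_0 : AllB (okS k11 [t11]) k11_0_l :=
  ⟨by decide +kernel,
  by decide +kernel,
  by decide +kernel,
  trivial⟩

noncomputable def k12_0_l : List Gp := [⟨(nat_lit 0), (nat_lit 12), (nat_lit 0), (nat_lit 10), (nat_lit 1), (nat_lit 70), (nat_lit 99), (nat_lit 8), (nat_lit 97), (nat_lit 30)⟩]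

theorem k12_0 : AllB (okS k12 [t12]) k12_0_l :=
  ⟨by decide +kernel,
  trivial⟩

noncomputable def k13_0_l : List Gp := [⟨(nat_lit 0), (nat_lit 8), (nat_lit 0), (nat_lit 9), (nat_lit 1), (nat_lit 75), (nat_lit 98), (nat_lit 6), (nat_lit 54), (nat_lit 24)⟩]

theorem k13_0 : AllB (okS k13 [t13]) k13_0_l :=
  ⟨by decide +kernel,
  trivial⟩

noncomputable def k14_0_l : List Gp := [⟨(nat_lit 0), (nat_lit 9), (nat_lit 0), (nat_lit 5), (nat_lit 1), (nat_lit 79), (nat_lit 98), (nat_lit 5), (nat_lit 46), (nat_lit 20)⟩]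

theorem k14_0 : AllB (okS k14 [t14]) k14_0_l :=
  ⟨by decide +kernel,
  trivial⟩

noncomputable def k15_0_l : List Gp := [⟨(nat_lit 0), (nat_lit 6), (nat_lit 0), (nat_lit 1), (nat_lit 1), (nat_lit 85), (nat_lit 94), (nat_lit 3), (nat_lit 19), (nat_lit 10)⟩]

theorem k15_0 : AllB (okS k15 [t15]) k15_0_l :=
  ⟨by decide +kernel,
  trivial⟩

end Vale.Agent.P236KE.Y100
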