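import Vale.Agent.P236KE.Y100.Cnt
import Vale.Agent.P236KE.Yr
import Vale.Agent.P236KE.Y100.K1
import Vale.Agent.P236KE.Y100.G4

/-!
# P236KE / Y100 : assembly (generated)
-/

set_option maxRecDepth 100000

namespace Vale.Agent.P236KE.Y100

theorem mid11 : midOk m11_t (res.d 12) (res.n 12) 100 = true := by decide +kernel

theorem lo11 (up : DLL) (dup : ℕ) : res.Lo ⟨cf3, d11, up, m11, g11, dup, (nat_lit 26), (nat_lit 208), (nat_lit 100)⟩ 100 11 :=
  ⟨rfl, rfl, rfl, rfl, rfl, rfl, ⟨_, m11_eq, mid11⟩,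
    (by decide : 100 < 117), (by decide : 26 ≤ 32), (by decide : 208 ≤ 300)⟩

theorem kq11 : ∃ k t gs, res.KY 100 11 k t gs :=
  ⟨k11, t11, _, lo11 d12 g13, rfl, rfl, rfl, rfl, rfl, by decide +kernel, k11_0, by decide +kernel⟩

theorem cq11 : res.CQ 100 zs hs ng cs 11 :=
  ⟨⟨_, _, lo11 e11 h11, rfl, g11_0, by decide +kernel, by decide +kernel⟩, by decide +kernel⟩

theorem ck11 : Vale.Agent.P236K2.ckD (2 ^ 28) (cs 12) (cs 11) (Sq.pn (res.n 11) (res.d 11) fun _ => []) 101 = true := by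
  decide +kernel

theorem mid12 : midOk m12_t (res.d 13) (res.n 13) 100 = true := by decide +kernel

theorem lo12 (up : DLL) (dup : ℕ) : res.Lo ⟨cf3, d12, up, m12, g12, dup, (nat_lit 26), (nat_lit 208), (nat_lit 100)⟩ 100 12 :=
  ⟨rfl, rfl, rfl, rfl, rfl, rfl, ⟨_, m12_eq, mid12⟩,
    (by decide : 100 < 117), (by decide : 26 ≤ 32), (by decide : 208 ≤ 300)⟩

theorem kq12 : ∃ k t gs, res.KY 100 12 k t gs :=
  ⟨k12, t12, _, lo12 d13 g14, rfl, rfl, rfl, rfl, rfl, by decide +kernel, k12_0, by decide +kernel⟩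

theorem cq12 : res.CQ 100 zs hs ng cs 12 :=
  ⟨⟨_, _, lo12 e12 h12, rfl, g12_0, by decide +kernel, by decide +kernel⟩, by decide +kernel⟩

theorem ck12 : Vale.Agent.P236K2.ckD (2 ^ 28) (cs 13) (cs 12) (Sq.pn (res.n 12) (res.d 12) fun _ => []) 101 = true := by
  decide +kernel

theorem mid13 : midOk m13_t (res.d 14) (res.n 14) 100 = true := by decide +kernel

theorem lo13 (up : DLL) (dup : ℕ) : res.Lo ⟨cf3, d13, up, m13, g13, dup, (nat_lit 26), (nat_lit 208), (nat_lit 100)⟩ 100 13 :=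
  ⟨rfl, rfl, rfl, rfl, rfl, rfl, ⟨_, m13_eq, mid13⟩,
    (by decide : 100 < 117), (by decide : 26 ≤ 32), (by decide : 208 ≤ 300)⟩

theorem kq13 : ∃ k t gs, res.KY 100 13 k t gs :=
  ⟨k13, t13, _, lo13 d14 g15, rfl, rfl, rfl, rfl, rfl, by decide +kernel, k13_0, by decide +kernel⟩

theorem cq13 : res.CQ 100 zs hs ng cs 13 :=
  ⟨⟨_, _, lo13 e13 h13, rfl, g13_0, by decide +kernel, by decide +kernel⟩, by decide +kernel⟩

theorem ck13 : Vale.Agent.P236K2.ckD (2 ^ 28) (cs 14) (cs 13) (Sq.pn (res.n 13) (res.d 13) fun _ => []) 101 = true := by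
  decide +kernel

theorem mid14 : midOk m14_t (res.d 15) (res.n 15) 100 = true := by decide +kernel

theorem lo14 (up : DLL) (dup : ℕ) : res.Lo ⟨cf3, d14, up, m14, g14, dup, (nat_lit 26), (nat_lit 208), (nat_lit 100)⟩ 100 14 :=
  ⟨rfl, rfl, rfl, rfl, rfl, rfl, ⟨_, m14_eq, mid14⟩,
    (by decide : 100 < 117), (by decide : 26 ≤ 32), (by decide : 208 ≤ 300)⟩

theorem kq14 : ∃ k t gs, res.KY 100 14 k t gs :=
  ⟨k14, t14, _, lo14 d15 g16, rfl, rfl, rfl, rfl, rfl, by decide +kernel, k14_0, by decide +kernel⟩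

theorem cq14 : res.CQ 100 zs hs ng cs 14 :=
  ⟨⟨_, _, lo14 e14 h14, rfl, g14_0, by decide +kernel, by decide +kernel⟩, by decide +kernel⟩

theorem ck14 : Vale.Agent.P236K2.ckD (2 ^ 28) (cs 15) (cs 14) (Sq.pn (res.n 14) (res.d 14) fun _ => []) 101 = true := by
  decide +kernel

theorem mid15 : midOk m15_t (res.d 16) (res.n 16) 100 = true := by decide +kernel

theorem lo15 (up : DLL) (dup : ℕ) : res.Lo ⟨cf3, d15, up, m15, g15, dup, (nat_lit 26), (nat_lit 208), (nat_lit 100)⟩ 100 15 :=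
  ⟨rfl, rfl, rfl, rfl, rfl, rfl, ⟨_, m15_eq, mid15⟩,
    (by decide : 100 < 117), (by decide : 26 ≤ 32), (by decide : 208 ≤ 300)⟩

theorem kq15 : ∃ k t gs, res.KY 100 15 k t gs :=
  ⟨k15, t15, _, lo15 d16 g17, rfl, rfl, rfl, rfl, rfl, by decide +kernel, k15_0, by decide +kernel⟩

theorem cq15 : res.CQ 100 zs hs ng cs 15 :=
  ⟨⟨_, _, lo15 e15 h15, rfl, g15_0, by decide +kernel, by decide +kernel⟩, by decide +kernel⟩

theorem ck15 : Vale.Agent.P236K2.ckD (2 ^ 28) (cs 16) (cs 15) (Sq.pn (res.n 15) (res.d 15) fun _ => []) 101 = true := by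
  decide +kernel

theorem mid16 : midOk m16_t (res.d 17) (res.n 17) 100 = true := by decide +kernel

theorem lo16 (up : DLL) (dup : ℕ) : res.Lo ⟨cf3, d16, up, m16, g16, dup, (nat_lit 26), (nat_lit 208), (nat_lit 100)⟩ 100 16 :=
  ⟨rfl, rfl, rfl, rfl, rfl, rfl, ⟨_, m16_eq, mid16⟩,
    (by decide : 100 < 117), (by decide : 26 ≤ 32), (by decide : 208 ≤ 300)⟩

theorem kq16 : ∃ k t gs, res.KY 100 16 k t gs :=
  ⟨k16, t16, [], lo16 d17 g18, rfl, rfl, rfl, rfl, rfl, by decide +kernel, trivial, by decide +kernel⟩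

theorem cq16 : res.CQ 100 zs hs ng cs 16 :=
  ⟨⟨_, _, lo16 e16 h16, rfl, g16_0, by decide +kernel, by decide +kernel⟩, by decide +kernel⟩

theorem ck16 : Vale.Agent.P236K2.ckD (2 ^ 28) (cs 17) (cs 16) (Sq.pn (res.n 16) (res.d 16) fun _ => []) 101 = true := by
  decide +kernel

theorem mid17 : midOk m17_t (res.d 18) (res.n 18) 100 = true := by decide +kernel

theorem lo17 (up : DLL) (dup : ℕ) : res.Lo ⟨cf3, d17, up, m17, g17, dup, (nat_lit 26), (nat_lit 208), (nat_lit 100)⟩ 100 17 :=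
  ⟨rfl, rfl, rfl, rfl, rfl, rfl, ⟨_, m17_eq, mid17⟩,
    (by decide : 100 < 117), (by decide : 26 ≤ 32), (by decide : 208 ≤ 300)⟩

theorem cq17 : res.CQ 100 zs hs ng cs 17 :=
  ⟨⟨_, [], lo17 e17 h17, rfl, trivial, by decide +kernel, by decide +kernel⟩, by decide +kernel⟩

end Vale.Agent.P236KE.Y100
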