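import Vale.Agent.P236KE.Y100.Cnt

/-!
# P236KE / Y100 : checks (generated)
-/

set_option maxRecDepth 100000

namespace Vale.Agent.P236KE.Y100

noncomputable def g4_1_l : List Gp := [⟨(nat_lit 4), (nat_lit 1), (nat_lit 151), (nat_lit 13), (nat_lit 1), (nat_lit 26), (nat_lit 100), (nat_lit 19), (nat_lit 247), (nat_lit 75)⟩,
  ⟨(nat_lit 5), (nat_lit 3), (nat_lit 87), (nat_lit 13), (nat_lit 1), (nat_lit 30), (nat_lit 86), (nat_lit 15), (nat_lit 195), (nat_lit 57)⟩,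
  ⟨(nat_lit 8), (nat_lit 3), (nat_lit 87), (nat_lit 13), (nat_lit 1), (nat_lit 36), (nat_lit 86), (nat_lit 13), (nat_lit 169), (nat_lit 51)⟩,
  ⟨(nat_lit 5), (nat_lit 3), (nat_lit 100), (nat_lit 6), (nat_lit 1), (nat_lit 30), (nat_lit 89), (nat_lit 15), (nat_lit 90), (nat_lit 60)⟩,
  ⟨(nat_lit 5), (nat_lit 3), (nat_lit 106), (nat_lit 12), (nat_lit 1), (nat_lit 30), (nat_lit 91), (nat_lit 16), (nat_lit 192), (nat_lit 62)⟩,
  ⟨(nat_lit 8), (nat_lit 3), (nat_lit 100), (nat_lit 18), (nat_lit 1), (nat_lit 36), (nat_lit 91), (nat_lit 14), (nat_lit 252), (nat_lit 56)⟩,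
  ⟨(nat_lit 5), (nat_lit 2), (nat_lit 118), (nat_lit 16), (nat_lit 1), (nat_lit 30), (nat_lit 94), (nat_lit 17), (nat_lit 272), (nat_lit 65)⟩,
  ⟨(nat_lit 7), (nat_lit 1), (nat_lit 118), (nat_lit 16), (nat_lit 1), (nat_lit 32), (nat_lit 94), (nat_lit 16), (nat_lit 256), (nat_lit 63)⟩,
  ⟨(nat_lit 5), (nat_lit 3), (nat_lit 134), (nat_lit 9), (nat_lit 1), (nat_lit 30), (nat_lit 96), (nat_lit 17), (nat_lit 153), (nat_lit 67)⟩,
  ⟨(nat_lit 5), (nat_lit 3), (nat_lit 143), (nat_lit 8), (nat_lit 1), (nat_lit 30), (nat_lit 98), (nat_lit 18), (nat_lit 144), (nat_lit 69)⟩,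
  ⟨(nat_lit 5), (nat_lit 1), (nat_lit 151), (nat_lit 13), (nat_lit 1), (nat_lit 30), (nat_lit 100), (nat_lit 18), (nat_lit 234), (nat_lit 71)⟩,
  ⟨(nat_lit 6), (nat_lit 1), (nat_lit 151), (nat_lit 13), (nat_lit 1), (nat_lit 31), (nat_lit 100), (nat_lit 18), (nat_lit 234), (nat_lit 70)⟩,
  ⟨(nat_lit 7), (nat_lit 1), (nat_lit 151), (nat_lit 13), (nat_lit 1), (nat_lit 32), (nat_lit 100), (nat_lit 18), (nat_lit 234), (nat_lit 69)⟩,
  ⟨(nat_lit 8), (nat_lit 3), (nat_lit 118), (nat_lit 16), (nat_lit 1), (nat_lit 36), (nat_lit 94), (nat_lit 15), (nat_lit 240), (nat_lit 59)⟩,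
  ⟨(nat_lit 8), (nat_lit 3), (nat_lit 134), (nat_lit 9), (nat_lit 1), (nat_lit 36), (nat_lit 96), (nat_lit 16), (nat_lit 144), (nat_lit 61)⟩,
  ⟨(nat_lit 8), (nat_lit 3), (nat_lit 143), (nat_lit 8), (nat_lit 1), (nat_lit 36), (nat_lit 98), (nat_lit 16), (nat_lit 128), (nat_lit 63)⟩,
  ⟨(nat_lit 8), (nat_lit 2), (nat_lit 151), (nat_lit 13), (nat_lit 1), (nat_lit 36), (nat_lit 100), (nat_lit 17), (nat_lit 221), (nat_lit 65)⟩,
  ⟨(nat_lit 10), (nat_lit 1), (nat_lit 151), (nat_lit 13), (nat_lit 1), (nat_lit 38), (nat_lit 100), (nat_lit 16), (nat_lit 208), (nat_lit 63)⟩,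
  ⟨(nat_lit 11), (nat_lit 7), (nat_lit 41), (nat_lit 18), (nat_lit 1), (nat_lit 42), (nat_lit 71), (nat_lit 8), (nat_lit 144), (nat_lit 30)⟩,
  ⟨(nat_lit 11), (nat_lit 4), (nat_lit 59), (nat_lit 28), (nat_lit 1), (nat_lit 42), (nat_lit 81), (nat_lit 10), (nat_lit 280), (nat_lit 40)⟩,
  ⟨(nat_lit 15), (nat_lit 3), (nat_lit 59), (nat_lit 28), (nat_lit 1), (nat_lit 54), (nat_lit 81), (nat_lit 7), (nat_lit 196), (nat_lit 28)⟩,
  ⟨(nat_lit 11), (nat_lit 4), (nat_lit 87), (nat_lit 13), (nat_lit 1), (nat_lit 42), (nat_lit 86), (nat_lit 12), (nat_lit 156), (nat_lit 45)⟩,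
  ⟨(nat_lit 11), (nat_lit 4), (nat_lit 100), (nat_lit 18), (nat_lit 1), (nat_lit 42), (nat_lit 91), (nat_lit 13), (nat_lit 234), (nat_lit 50)⟩,
  ⟨(nat_lit 15), (nat_lit 3), (nat_lit 87), (nat_lit 31), (nat_lit 1), (nat_lit 54), (nat_lit 91), (nat_lit 10), (nat_lit 310), (nat_lit 38)⟩,
  ⟨(nat_lit 11), (nat_lit 3), (nat_lit 118), (nat_lit 25), (nat_lit 1), (nat_lit 42), (nat_lit 96), (nat_lit 14), (nat_lit 350), (nat_lit 55)⟩,
  ⟨(nat_lit 14), (nat_lit 1), (nat_lit 118), (nat_lit 25), (nat_lit 1), (nat_lit 49), (nat_lit 96), (nat_lit 12), (nat_lit 300), (nat_lit 48)⟩,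
  ⟨(nat_lit 11), (nat_lit 3), (nat_lit 143), (nat_lit 8), (nat_lit 1), (nat_lit 42), (nat_lit 98), (nat_lit 15), (nat_lit 120), (nat_lit 57)⟩,
  ⟨(nat_lit 11), (nat_lit 3), (nat_lit 151), (nat_lit 13), (nat_lit 1), (nat_lit 42), (nat_lit 100), (nat_lit 15), (nat_lit 195), (nat_lit 59)⟩,
  ⟨(nat_lit 14), (nat_lit 1), (nat_lit 143), (nat_lit 21), (nat_lit 1), (nat_lit 49), (nat_lit 100), (nat_lit 13), (nat_lit 273), (nat_lit 52)⟩,
  ⟨(nat_lit 15), (nat_lit 3), (nat_lit 118), (nat_lit 25), (nat_lit 1), (nat_lit 54), (nat_lit 96), (nat_lit 11), (nat_lit 275), (nat_lit 43)⟩,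
  ⟨(nat_lit 15), (nat_lit 3), (nat_lit 143), (nat_lit 21), (nat_lit 1), (nat_lit 54), (nat_lit 100), (nat_lit 12), (nat_lit 252), (nat_lit 47)⟩,
  ⟨(nat_lit 18), (nat_lit 6), (nat_lit 38), (nat_lit 20), (nat_lit 1), (nat_lit 60), (nat_lit 70), (nat_lit 3), (nat_lit 60), (nat_lit 11)⟩,
  ⟨(nat_lit 18), (nat_lit 11), (nat_lit 58), (nat_lit 26), (nat_lit 1), (nat_lit 60), (nat_lit 80), (nat_lit 6), (nat_lit 156), (nat_lit 21)⟩,
  ⟨(nat_lit 18), (nat_lit 4), (nat_lit 84), (nat_lit 28), (nat_lit 1), (nat_lit 60), (nat_lit 90), (nat_lit 8), (nat_lit 224), (nat_lit 31)⟩,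
  ⟨(nat_lit 22), (nat_lit 7), (nat_lit 84), (nat_lit 28), (nat_lit 1), (nat_lit 69), (nat_lit 90), (nat_lit 6), (nat_lit 168), (nat_lit 22)⟩,
  ⟨(nat_lit 18), (nat_lit 4), (nat_lit 112), (nat_lit 27), (nat_lit 1), (nat_lit 60), (nat_lit 95), (nat_lit 9), (nat_lit 243), (nat_lit 36)⟩,
  ⟨(nat_lit 18), (nat_lit 4), (nat_lit 139), (nat_lit 25), (nat_lit 1), (nat_lit 60), (nat_lit 100), (nat_lit 11), (nat_lit 275), (nat_lit 41)⟩,
  ⟨(nat_lit 22), (nat_lit 7), (nat_lit 112), (nat_lit 27), (nat_lit 1), (nat_lit 69), (nat_lit 95), (nat_lit 7), (nat_lit 189), (nat_lit 27)⟩,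
  ⟨(nat_lit 22), (nat_lit 7), (nat_lit 139), (nat_lit 25), (nat_lit 1), (nat_lit 69), (nat_lit 100), (nat_lit 8), (nat_lit 200), (nat_lit 32)⟩,
  ⟨(nat_lit 29), (nat_lit 6), (nat_lit 87), (nat_lit 31), (nat_lit 1), (nat_lit 82), (nat_lit 91), (nat_lit 3), (nat_lit 93), (nat_lit 10)⟩,
  ⟨(nat_lit 29), (nat_lit 6), (nat_lit 118), (nat_lit 46), (nat_lit 1), (nat_lit 82), (nat_lit 100), (nat_lit 5), (nat_lit 230), (nat_lit 19)⟩,
  ⟨(nat_lit 35), (nat_lit 7), (nat_lit 128), (nat_lit 36), (nat_lit 1), (nat_lit 94), (nat_lit 100), (nat_lit 2), (nat_lit 72), (nat_lit 7)⟩]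

theorem g4_1 : AllB (okG ⟨cf3, d4, e4, m4, g4, h4, (nat_lit 26), (nat_lit 208), (nat_lit 100)⟩ z4) g4_1_l :=
  ⟨by decide +kernel,
  by decide +kernel,
  by decide +kernel,
  by decide +kernel,
  by decide +kernel,
  by decide +kernel,
  by decide +kernel,
  by decide +kernel,
  by decide +kernel,
  by decide +kernel,
  by decide +kernel,
  by decide +kernel,
  by decide +kernel,
  by decide +kernel,
  by decide +kernel,
  by decide +kernel,
  by decide +kernel,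
  by decide +kernel,
  by decide +kernel,
  by decide +kernel,
  by decide +kernel,
  by decide +kernel,
  by decide +kernel,
  by decide +kernel,
  by decide +kernel,
  by decide +kernel,
  by decide +kernel,
  by decide +kernel,
  by decide +kernel,
  by decide +kernel,
  by decide +kernel,
  by decide +kernel,
  by decide +kernel,
  by decide +kernel,
  by decide +kernel,
  by decide +kernel,
  by decide +kernel,
  by decide +kernel,
  by decide +kernel,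
  by decide +kernel,
  by decide +kernel,
  by decide +kernel,
  trivial⟩

noncomputable def g5_0_l : List Gp := [⟨(nat_lit 0), (nat_lit 8), (nat_lit 0), (nat_lit 16), (nat_lit 1), (nat_lit 22), (nat_lit 50), (nat_lit 8), (nat_lit 128), (nat_lit 29)⟩,
  ⟨(nat_lit 0), (nat_lit 2), (nat_lit 16), (nat_lit 15), (nat_lit 1), (nat_lit 22), (nat_lit 67), (nat_lit 12), (nat_lit 180), (nat_lit 46)⟩,
  ⟨(nat_lit 2), (nat_lit 6), (nat_lit 16), (nat_lit 15), (nat_lit 1), (nat_lit 31), (nat_lit 67), (nat_lit 10), (nat_lit 150), (nat_lit 37)⟩,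
  ⟨(nat_lit 8), (nat_lit 8), (nat_lit 4), (nat_lit 27), (nat_lit 1), (nat_lit 40), (nat_lit 67), (nat_lit 7), (nat_lit 189), (nat_lit 28)⟩,
  ⟨(nat_lit 0), (nat_lit 1), (nat_lit 31), (nat_lit 26), (nat_lit 1), (nat_lit 22), (nat_lit 76), (nat_lit 14), (nat_lit 364), (nat_lit 55)⟩,
  ⟨(nat_lit 1), (nat_lit 1), (nat_lit 31), (nat_lit 26), (nat_lit 1), (nat_lit 30), (nat_lit 76), (nat_lit 12), (nat_lit 312), (nat_lit 47)⟩,
  ⟨(nat_lit 0), (nat_lit 1), (nat_lit 57), (nat_lit 26), (nat_lit 1), (nat_lit 22), (nat_lit 84), (nat_lit 16), (nat_lit 416), (nat_lit 63)⟩,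
  ⟨(nat_lit 1), (nat_lit 1), (nat_lit 57), (nat_lit 26), (nat_lit 1), (nat_lit 30), (nat_lit 84), (nat_lit 14), (nat_lit 364), (nat_lit 55)⟩,
  ⟨(nat_lit 2), (nat_lit 2), (nat_lit 31), (nat_lit 13), (nat_lit 1), (nat_lit 31), (nat_lit 72), (nat_lit 11), (nat_lit 143), (nat_lit 42)⟩,
  ⟨(nat_lit 4), (nat_lit 4), (nat_lit 31), (nat_lit 13), (nat_lit 1), (nat_lit 35), (nat_lit 72), (nat_lit 10), (nat_lit 130), (nat_lit 38)⟩,
  ⟨(nat_lit 2), (nat_lit 2), (nat_lit 44), (nat_lit 13), (nat_lit 1), (nat_lit 31), (nat_lit 76), (nat_lit 12), (nat_lit 156), (nat_lit 46)⟩,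
  ⟨(nat_lit 4), (nat_lit 4), (nat_lit 44), (nat_lit 13), (nat_lit 1), (nat_lit 35), (nat_lit 76), (nat_lit 11), (nat_lit 143), (nat_lit 42)⟩,
  ⟨(nat_lit 2), (nat_lit 2), (nat_lit 57), (nat_lit 26), (nat_lit 1), (nat_lit 31), (nat_lit 84), (nat_lit 14), (nat_lit 364), (nat_lit 54)⟩,
  ⟨(nat_lit 4), (nat_lit 4), (nat_lit 57), (nat_lit 12), (nat_lit 1), (nat_lit 35), (nat_lit 80), (nat_lit 12), (nat_lit 144), (nat_lit 46)⟩,
  ⟨(nat_lit 4), (nat_lit 4), (nat_lit 69), (nat_lit 14), (nat_lit 1), (nat_lit 35), (nat_lit 84), (nat_lit 13), (nat_lit 182), (nat_lit 50)⟩,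
  ⟨(nat_lit 0), (nat_lit 1), (nat_lit 83), (nat_lit 13), (nat_lit 1), (nat_lit 22), (nat_lit 88), (nat_lit 17), (nat_lit 221), (nat_lit 67)⟩,
  ⟨(nat_lit 0), (nat_lit 1), (nat_lit 96), (nat_lit 19), (nat_lit 1), (nat_lit 22), (nat_lit 92), (nat_lit 18), (nat_lit 342), (nat_lit 71)⟩,
  ⟨(nat_lit 1), (nat_lit 1), (nat_lit 83), (nat_lit 32), (nat_lit 1), (nat_lit 30), (nat_lit 92), (nat_lit 16), (nat_lit 512), (nat_lit 63)⟩,
  ⟨(nat_lit 0), (nat_lit 1), (nat_lit 115), (nat_lit 12), (nat_lit 1), (nat_lit 22), (nat_lit 94), (nat_lit 19), (nat_lit 228), (nat_lit 73)⟩,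
  ⟨(nat_lit 0), (nat_lit 1), (nat_lit 127), (nat_lit 14), (nat_lit 1), (nat_lit 22), (nat_lit 96), (nat_lit 19), (nat_lit 266), (nat_lit 75)⟩,
  ⟨(nat_lit 0), (nat_lit 1), (nat_lit 141), (nat_lit 9), (nat_lit 1), (nat_lit 22), (nat_lit 98), (nat_lit 20), (nat_lit 180), (nat_lit 77)⟩,
  ⟨(nat_lit 0), (nat_lit 1), (nat_lit 150), (nat_lit 13), (nat_lit 1), (nat_lit 22), (nat_lit 100), (nat_lit 20), (nat_lit 260), (nat_lit 79)⟩,
  ⟨(nat_lit 1), (nat_lit 1), (nat_lit 115), (nat_lit 26), (nat_lit 1), (nat_lit 30), (nat_lit 96), (nat_lit 17), (nat_lit 442), (nat_lit 67)⟩,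
  ⟨(nat_lit 1), (nat_lit 1), (nat_lit 141), (nat_lit 22), (nat_lit 1), (nat_lit 30), (nat_lit 100), (nat_lit 18), (nat_lit 396), (nat_lit 71)⟩,
  ⟨(nat_lit 2), (nat_lit 2), (nat_lit 83), (nat_lit 13), (nat_lit 1), (nat_lit 31), (nat_lit 88), (nat_lit 15), (nat_lit 195), (nat_lit 58)⟩,
  ⟨(nat_lit 2), (nat_lit 2), (nat_lit 96), (nat_lit 19), (nat_lit 1), (nat_lit 31), (nat_lit 92), (nat_lit 16), (nat_lit 304), (nat_lit 62)⟩,
  ⟨(nat_lit 4), (nat_lit 4), (nat_lit 83), (nat_lit 13), (nat_lit 1), (nat_lit 35), (nat_lit 88), (nat_lit 14), (nat_lit 182), (nat_lit 54)⟩,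
  ⟨(nat_lit 4), (nat_lit 2), (nat_lit 96), (nat_lit 19), (nat_lit 1), (nat_lit 35), (nat_lit 92), (nat_lit 15), (nat_lit 285), (nat_lit 58)⟩,
  ⟨(nat_lit 6), (nat_lit 2), (nat_lit 96), (nat_lit 19), (nat_lit 1), (nat_lit 37), (nat_lit 92), (nat_lit 14), (nat_lit 266), (nat_lit 56)⟩,
  ⟨(nat_lit 2), (nat_lit 2), (nat_lit 115), (nat_lit 12), (nat_lit 1), (nat_lit 31), (nat_lit 94), (nat_lit 16), (nat_lit 192), (nat_lit 64)⟩,
  ⟨(nat_lit 2), (nat_lit 2), (nat_lit 127), (nat_lit 14), (nat_lit 1), (nat_lit 31), (nat_lit 96), (nat_lit 17), (nat_lit 238), (nat_lit 66)⟩,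
  ⟨(nat_lit 2), (nat_lit 2), (nat_lit 141), (nat_lit 9), (nat_lit 1), (nat_lit 31), (nat_lit 98), (nat_lit 17), (nat_lit 153), (nat_lit 68)⟩,
  ⟨(nat_lit 2), (nat_lit 2), (nat_lit 150), (nat_lit 13), (nat_lit 1), (nat_lit 31), (nat_lit 100), (nat_lit 18), (nat_lit 234), (nat_lit 70)⟩,
  ⟨(nat_lit 4), (nat_lit 2), (nat_lit 115), (nat_lit 12), (nat_lit 1), (nat_lit 35), (nat_lit 94), (nat_lit 15), (nat_lit 180), (nat_lit 60)⟩]

theorem g5_0 : AllB (okG ⟨cf3, d5, e5, m5, g5, h5, (nat_lit 26), (nat_lit 208), (nat_lit 100)⟩ z5) g5_0_l :=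
  ⟨by decide +kernel,
  by decide +kernel,
  by decide +kernel,
  by decide +kernel,
  by decide +kernel,
  by decide +kernel,
  by decide +kernel,
  by decide +kernel,
  by decide +kernel,
  by decide +kernel,
  by decide +kernel,
  by decide +kernel,
  by decide +kernel,
  by decide +kernel,
  by decide +kernel,
  by decide +kernel,
  by decide +kernel,
  by decide +kernel,
  by decide +kernel,
  by decide +kernel,
  by decide +kernel,
  by decide +kernel,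
  by decide +kernel,
  by decide +kernel,
  by decide +kernel,
  by decide +kernel,
  by decide +kernel,
  by decide +kernel,
  by decide +kernel,
  by decide +kernel,
  by decide +kernel,
  by decide +kernel,
  by decide +kernel,
  by decide +kernel,
  trivial⟩

end Vale.Agent.P236KE.Y100
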