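import Vale.Agent.P236KE.Y100.Cnt

/-!
# P236KE / Y100 : checks (generated)
-/

set_option maxRecDepth 100000

namespace Vale.Agent.P236KE.Y100

noncomputable def g5_1_l : List Gp := [⟨(nat_lit 4), (nat_lit 2), (nat_lit 127), (nat_lit 14), (nat_lit 1), (nat_lit 35), (nat_lit 96), (nat_lit 16), (nat_lit 224), (nat_lit 62)⟩,
  ⟨(nat_lit 6), (nat_lit 2), (nat_lit 115), (nat_lit 26), (nat_lit 1), (nat_lit 37), (nat_lit 96), (nat_lit 15), (nat_lit 390), (nat_lit 60)⟩,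
  ⟨(nat_lit 4), (nat_lit 2), (nat_lit 141), (nat_lit 9), (nat_lit 1), (nat_lit 35), (nat_lit 98), (nat_lit 16), (nat_lit 144), (nat_lit 64)⟩,
  ⟨(nat_lit 4), (nat_lit 2), (nat_lit 150), (nat_lit 13), (nat_lit 1), (nat_lit 35), (nat_lit 100), (nat_lit 17), (nat_lit 221), (nat_lit 66)⟩,
  ⟨(nat_lit 6), (nat_lit 2), (nat_lit 141), (nat_lit 9), (nat_lit 1), (nat_lit 37), (nat_lit 98), (nat_lit 16), (nat_lit 144), (nat_lit 62)⟩,
  ⟨(nat_lit 6), (nat_lit 2), (nat_lit 150), (nat_lit 13), (nat_lit 1), (nat_lit 37), (nat_lit 100), (nat_lit 16), (nat_lit 208), (nat_lit 64)⟩,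
  ⟨(nat_lit 8), (nat_lit 7), (nat_lit 31), (nat_lit 13), (nat_lit 1), (nat_lit 40), (nat_lit 72), (nat_lit 9), (nat_lit 117), (nat_lit 33)⟩,
  ⟨(nat_lit 8), (nat_lit 7), (nat_lit 44), (nat_lit 13), (nat_lit 1), (nat_lit 40), (nat_lit 76), (nat_lit 10), (nat_lit 130), (nat_lit 37)⟩,
  ⟨(nat_lit 8), (nat_lit 4), (nat_lit 57), (nat_lit 26), (nat_lit 1), (nat_lit 40), (nat_lit 84), (nat_lit 12), (nat_lit 312), (nat_lit 45)⟩,
  ⟨(nat_lit 12), (nat_lit 3), (nat_lit 57), (nat_lit 26), (nat_lit 1), (nat_lit 45), (nat_lit 84), (nat_lit 10), (nat_lit 260), (nat_lit 40)⟩,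
  ⟨(nat_lit 15), (nat_lit 1), (nat_lit 31), (nat_lit 52), (nat_lit 1), (nat_lit 57), (nat_lit 84), (nat_lit 7), (nat_lit 364), (nat_lit 28)⟩,
  ⟨(nat_lit 8), (nat_lit 4), (nat_lit 83), (nat_lit 13), (nat_lit 1), (nat_lit 40), (nat_lit 88), (nat_lit 13), (nat_lit 169), (nat_lit 49)⟩,
  ⟨(nat_lit 8), (nat_lit 4), (nat_lit 96), (nat_lit 19), (nat_lit 1), (nat_lit 40), (nat_lit 92), (nat_lit 14), (nat_lit 266), (nat_lit 53)⟩,
  ⟨(nat_lit 12), (nat_lit 3), (nat_lit 83), (nat_lit 32), (nat_lit 1), (nat_lit 45), (nat_lit 92), (nat_lit 12), (nat_lit 384), (nat_lit 48)⟩,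
  ⟨(nat_lit 8), (nat_lit 2), (nat_lit 115), (nat_lit 26), (nat_lit 1), (nat_lit 40), (nat_lit 96), (nat_lit 15), (nat_lit 390), (nat_lit 57)⟩,
  ⟨(nat_lit 10), (nat_lit 2), (nat_lit 115), (nat_lit 26), (nat_lit 1), (nat_lit 42), (nat_lit 96), (nat_lit 14), (nat_lit 364), (nat_lit 55)⟩,
  ⟨(nat_lit 8), (nat_lit 2), (nat_lit 141), (nat_lit 22), (nat_lit 1), (nat_lit 40), (nat_lit 100), (nat_lit 16), (nat_lit 352), (nat_lit 61)⟩,
  ⟨(nat_lit 10), (nat_lit 2), (nat_lit 141), (nat_lit 22), (nat_lit 1), (nat_lit 42), (nat_lit 100), (nat_lit 15), (nat_lit 330), (nat_lit 59)⟩,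
  ⟨(nat_lit 12), (nat_lit 3), (nat_lit 115), (nat_lit 26), (nat_lit 1), (nat_lit 45), (nat_lit 96), (nat_lit 13), (nat_lit 338), (nat_lit 52)⟩,
  ⟨(nat_lit 12), (nat_lit 3), (nat_lit 141), (nat_lit 22), (nat_lit 1), (nat_lit 45), (nat_lit 100), (nat_lit 14), (nat_lit 308), (nat_lit 56)⟩,
  ⟨(nat_lit 15), (nat_lit 1), (nat_lit 83), (nat_lit 32), (nat_lit 1), (nat_lit 57), (nat_lit 92), (nat_lit 9), (nat_lit 288), (nat_lit 36)⟩,
  ⟨(nat_lit 15), (nat_lit 1), (nat_lit 115), (nat_lit 48), (nat_lit 1), (nat_lit 57), (nat_lit 100), (nat_lit 11), (nat_lit 528), (nat_lit 44)⟩,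
  ⟨(nat_lit 16), (nat_lit 7), (nat_lit 23), (nat_lit 49), (nat_lit 1), (nat_lit 62), (nat_lit 81), (nat_lit 5), (nat_lit 245), (nat_lit 20)⟩,
  ⟨(nat_lit 23), (nat_lit 10), (nat_lit 41), (nat_lit 31), (nat_lit 1), (nat_lit 72), (nat_lit 81), (nat_lit 3), (nat_lit 93), (nat_lit 10)⟩,
  ⟨(nat_lit 16), (nat_lit 7), (nat_lit 72), (nat_lit 38), (nat_lit 1), (nat_lit 62), (nat_lit 91), (nat_lit 8), (nat_lit 304), (nat_lit 30)⟩,
  ⟨(nat_lit 16), (nat_lit 4), (nat_lit 110), (nat_lit 31), (nat_lit 1), (nat_lit 62), (nat_lit 96), (nat_lit 9), (nat_lit 279), (nat_lit 35)⟩,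
  ⟨(nat_lit 16), (nat_lit 4), (nat_lit 141), (nat_lit 22), (nat_lit 1), (nat_lit 62), (nat_lit 100), (nat_lit 10), (nat_lit 220), (nat_lit 39)⟩,
  ⟨(nat_lit 20), (nat_lit 3), (nat_lit 110), (nat_lit 53), (nat_lit 1), (nat_lit 67), (nat_lit 100), (nat_lit 9), (nat_lit 477), (nat_lit 34)⟩,
  ⟨(nat_lit 23), (nat_lit 10), (nat_lit 72), (nat_lit 38), (nat_lit 1), (nat_lit 72), (nat_lit 91), (nat_lit 5), (nat_lit 190), (nat_lit 20)⟩,
  ⟨(nat_lit 23), (nat_lit 5), (nat_lit 110), (nat_lit 31), (nat_lit 1), (nat_lit 72), (nat_lit 96), (nat_lit 7), (nat_lit 217), (nat_lit 25)⟩,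
  ⟨(nat_lit 23), (nat_lit 5), (nat_lit 141), (nat_lit 22), (nat_lit 1), (nat_lit 72), (nat_lit 100), (nat_lit 8), (nat_lit 176), (nat_lit 29)⟩,
  ⟨(nat_lit 28), (nat_lit 5), (nat_lit 110), (nat_lit 53), (nat_lit 1), (nat_lit 77), (nat_lit 100), (nat_lit 6), (nat_lit 318), (nat_lit 24)⟩,
  ⟨(nat_lit 33), (nat_lit 7), (nat_lit 72), (nat_lit 38), (nat_lit 1), (nat_lit 82), (nat_lit 91), (nat_lit 3), (nat_lit 114), (nat_lit 10)⟩,
  ⟨(nat_lit 33), (nat_lit 7), (nat_lit 110), (nat_lit 53), (nat_lit 1), (nat_lit 82), (nat_lit 100), (nat_lit 5), (nat_lit 265), (nat_lit 19)⟩,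
  ⟨(nat_lit 40), (nat_lit 7), (nat_lit 115), (nat_lit 48), (nat_lit 1), (nat_lit 93), (nat_lit 100), (nat_lit 2), (nat_lit 96), (nat_lit 8)⟩]

theorem g5_1 : AllB (okG ⟨cf3, d5, e5, m5, g5, h5, (nat_lit 26), (nat_lit 208), (nat_lit 100)⟩ z5) g5_1_l :=
  ⟨by decide +kernel,
  by decide +kernel,
  by decide +kernel,
  by decide +kernel,
  by decide +kernel,
  by decide +kernel,
  by decide +kernel,
  by decide +kernel,
  by decide +kernel,
  by decide +kernel,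
  by decide +kernel,
  by decide +kernel,
  by decide +kernel,
  by decide +kernel,
  by decide +kernel,
  by decide +kernel,
  by decide +kernel,
  by decide +kernel,
  by decide +kernel,
  by decide +kernel,
  by decide +kernel,
  by decide +kernel,
  by decide +kernel,
  by decide +kernel,
  by decide +kernel,
  by decide +kernel,
  by decide +kernel,
  by decide +kernel,
  by decide +kernel,
  by decide +kernel,
  by decide +kernel,
  by decide +kernel,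
  by decide +kernel,
  by decide +kernel,
  by decide +kernel,
  trivial⟩

noncomputable def g6_0_l : List Gp := [⟨(nat_lit 0), (nat_lit 9), (nat_lit 0), (nat_lit 12), (nat_lit 1), (nat_lit 34), (nat_lit 54), (nat_lit 6), (nat_lit 72), (nat_lit 21)⟩,
  ⟨(nat_lit 0), (nat_lit 5), (nat_lit 12), (nat_lit 13), (nat_lit 1), (nat_lit 34), (nat_lit 69), (nat_lit 9), (nat_lit 117), (nat_lit 36)⟩,
  ⟨(nat_lit 5), (nat_lit 4), (nat_lit 12), (nat_lit 13), (nat_lit 1), (nat_lit 41), (nat_lit 69), (nat_lit 8), (nat_lit 104), (nat_lit 29)⟩,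
  ⟨(nat_lit 9), (nat_lit 4), (nat_lit 8), (nat_lit 17), (nat_lit 1), (nat_lit 53), (nat_lit 69), (nat_lit 5), (nat_lit 85), (nat_lit 17)⟩,
  ⟨(nat_lit 0), (nat_lit 5), (nat_lit 25), (nat_lit 15), (nat_lit 1), (nat_lit 34), (nat_lit 77), (nat_lit 11), (nat_lit 165), (nat_lit 44)⟩,
  ⟨(nat_lit 5), (nat_lit 4), (nat_lit 25), (nat_lit 15), (nat_lit 1), (nat_lit 41), (nat_lit 77), (nat_lit 10), (nat_lit 150), (nat_lit 37)⟩,
  ⟨(nat_lit 0), (nat_lit 3), (nat_lit 40), (nat_lit 31), (nat_lit 1), (nat_lit 34), (nat_lit 85), (nat_lit 13), (nat_lit 403), (nat_lit 52)⟩,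
  ⟨(nat_lit 3), (nat_lit 2), (nat_lit 40), (nat_lit 31), (nat_lit 1), (nat_lit 39), (nat_lit 85), (nat_lit 12), (nat_lit 372), (nat_lit 47)⟩,
  ⟨(nat_lit 5), (nat_lit 1), (nat_lit 40), (nat_lit 31), (nat_lit 1), (nat_lit 41), (nat_lit 85), (nat_lit 12), (nat_lit 372), (nat_lit 45)⟩,
  ⟨(nat_lit 6), (nat_lit 3), (nat_lit 40), (nat_lit 20), (nat_lit 1), (nat_lit 45), (nat_lit 82), (nat_lit 10), (nat_lit 200), (nat_lit 38)⟩,
  ⟨(nat_lit 6), (nat_lit 3), (nat_lit 60), (nat_lit 11), (nat_lit 1), (nat_lit 45), (nat_lit 85), (nat_lit 11), (nat_lit 121), (nat_lit 41)⟩,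
  ⟨(nat_lit 0), (nat_lit 3), (nat_lit 71), (nat_lit 13), (nat_lit 1), (nat_lit 34), (nat_lit 89), (nat_lit 14), (nat_lit 182), (nat_lit 56)⟩,
  ⟨(nat_lit 3), (nat_lit 2), (nat_lit 71), (nat_lit 13), (nat_lit 1), (nat_lit 39), (nat_lit 89), (nat_lit 13), (nat_lit 169), (nat_lit 51)⟩,
  ⟨(nat_lit 0), (nat_lit 3), (nat_lit 84), (nat_lit 14), (nat_lit 1), (nat_lit 34), (nat_lit 93), (nat_lit 15), (nat_lit 210), (nat_lit 60)⟩,
  ⟨(nat_lit 3), (nat_lit 2), (nat_lit 84), (nat_lit 14), (nat_lit 1), (nat_lit 39), (nat_lit 93), (nat_lit 14), (nat_lit 196), (nat_lit 55)⟩,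
  ⟨(nat_lit 5), (nat_lit 4), (nat_lit 71), (nat_lit 13), (nat_lit 1), (nat_lit 41), (nat_lit 89), (nat_lit 13), (nat_lit 169), (nat_lit 49)⟩,
  ⟨(nat_lit 5), (nat_lit 1), (nat_lit 84), (nat_lit 14), (nat_lit 1), (nat_lit 41), (nat_lit 93), (nat_lit 14), (nat_lit 196), (nat_lit 53)⟩,
  ⟨(nat_lit 6), (nat_lit 3), (nat_lit 84), (nat_lit 14), (nat_lit 1), (nat_lit 45), (nat_lit 93), (nat_lit 13), (nat_lit 182), (nat_lit 49)⟩,
  ⟨(nat_lit 0), (nat_lit 3), (nat_lit 98), (nat_lit 14), (nat_lit 1), (nat_lit 34), (nat_lit 97), (nat_lit 16), (nat_lit 224), (nat_lit 64)⟩,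
  ⟨(nat_lit 0), (nat_lit 2), (nat_lit 112), (nat_lit 14), (nat_lit 1), (nat_lit 34), (nat_lit 100), (nat_lit 17), (nat_lit 238), (nat_lit 67)⟩,
  ⟨(nat_lit 2), (nat_lit 1), (nat_lit 112), (nat_lit 14), (nat_lit 1), (nat_lit 36), (nat_lit 100), (nat_lit 17), (nat_lit 238), (nat_lit 65)⟩,
  ⟨(nat_lit 3), (nat_lit 2), (nat_lit 98), (nat_lit 14), (nat_lit 1), (nat_lit 39), (nat_lit 97), (nat_lit 15), (nat_lit 210), (nat_lit 59)⟩,
  ⟨(nat_lit 3), (nat_lit 2), (nat_lit 112), (nat_lit 14), (nat_lit 1), (nat_lit 39), (nat_lit 100), (nat_lit 16), (nat_lit 224), (nat_lit 62)⟩,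
  ⟨(nat_lit 5), (nat_lit 1), (nat_lit 98), (nat_lit 28), (nat_lit 1), (nat_lit 41), (nat_lit 100), (nat_lit 15), (nat_lit 420), (nat_lit 60)⟩,
  ⟨(nat_lit 6), (nat_lit 3), (nat_lit 98), (nat_lit 14), (nat_lit 1), (nat_lit 45), (nat_lit 97), (nat_lit 14), (nat_lit 196), (nat_lit 53)⟩,
  ⟨(nat_lit 6), (nat_lit 3), (nat_lit 112), (nat_lit 14), (nat_lit 1), (nat_lit 45), (nat_lit 100), (nat_lit 14), (nat_lit 196), (nat_lit 56)⟩,
  ⟨(nat_lit 9), (nat_lit 4), (nat_lit 25), (nat_lit 15), (nat_lit 1), (nat_lit 53), (nat_lit 77), (nat_lit 7), (nat_lit 105), (nat_lit 25)⟩,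
  ⟨(nat_lit 9), (nat_lit 4), (nat_lit 40), (nat_lit 31), (nat_lit 1), (nat_lit 53), (nat_lit 85), (nat_lit 9), (nat_lit 279), (nat_lit 33)⟩,
  ⟨(nat_lit 9), (nat_lit 2), (nat_lit 71), (nat_lit 27), (nat_lit 1), (nat_lit 53), (nat_lit 93), (nat_lit 11), (nat_lit 297), (nat_lit 41)⟩,
  ⟨(nat_lit 11), (nat_lit 2), (nat_lit 71), (nat_lit 27), (nat_lit 1), (nat_lit 61), (nat_lit 93), (nat_lit 9), (nat_lit 243), (nat_lit 33)⟩,
  ⟨(nat_lit 9), (nat_lit 2), (nat_lit 98), (nat_lit 28), (nat_lit 1), (nat_lit 53), (nat_lit 100), (nat_lit 12), (nat_lit 336), (nat_lit 48)⟩,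
  ⟨(nat_lit 11), (nat_lit 2), (nat_lit 98), (nat_lit 28), (nat_lit 1), (nat_lit 61), (nat_lit 100), (nat_lit 10), (nat_lit 280), (nat_lit 40)⟩,
  ⟨(nat_lit 13), (nat_lit 9), (nat_lit 23), (nat_lit 15), (nat_lit 1), (nat_lit 69), (nat_lit 76), (nat_lit 2), (nat_lit 30), (nat_lit 8)⟩,
  ⟨(nat_lit 13), (nat_lit 16), (nat_lit 38), (nat_lit 30), (nat_lit 1), (nat_lit 69), (nat_lit 84), (nat_lit 4), (nat_lit 120), (nat_lit 16)⟩,
  ⟨(nat_lit 13), (nat_lit 7), (nat_lit 68), (nat_lit 27), (nat_lit 1), (nat_lit 69), (nat_lit 92), (nat_lit 6), (nat_lit 162), (nat_lit 24)⟩,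
  ⟨(nat_lit 20), (nat_lit 9), (nat_lit 68), (nat_lit 27), (nat_lit 1), (nat_lit 76), (nat_lit 92), (nat_lit 5), (nat_lit 135), (nat_lit 17)⟩,
  ⟨(nat_lit 13), (nat_lit 7), (nat_lit 95), (nat_lit 31), (nat_lit 1), (nat_lit 69), (nat_lit 100), (nat_lit 8), (nat_lit 248), (nat_lit 32)⟩,
  ⟨(nat_lit 20), (nat_lit 9), (nat_lit 95), (nat_lit 31), (nat_lit 1), (nat_lit 76), (nat_lit 100), (nat_lit 7), (nat_lit 217), (nat_lit 25)⟩,
  ⟨(nat_lit 29), (nat_lit 7), (nat_lit 68), (nat_lit 58), (nat_lit 1), (nat_lit 85), (nat_lit 100), (nat_lit 4), (nat_lit 232), (nat_lit 16)⟩,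
  ⟨(nat_lit 36), (nat_lit 4), (nat_lit 95), (nat_lit 31), (nat_lit 1), (nat_lit 93), (nat_lit 100), (nat_lit 2), (nat_lit 62), (nat_lit 8)⟩]

theorem g6_0 : AllB (okG ⟨cf3, d6, e6, m6, g6, h6, (nat_lit 26), (nat_lit 208), (nat_lit 100)⟩ z6) g6_0_l :=
  ⟨by decide +kernel,
  by decide +kernel,
  by decide +kernel,
  by decide +kernel,
  by decide +kernel,
  by decide +kernel,
  by decide +kernel,
  by decide +kernel,
  by decide +kernel,
  by decide +kernel,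
  by decide +kernel,
  by decide +kernel,
  by decide +kernel,
  by decide +kernel,
  by decide +kernel,
  by decide +kernel,
  by decide +kernel,
  by decide +kernel,
  by decide +kernel,
  by decide +kernel,
  by decide +kernel,
  by decide +kernel,
  by decide +kernel,
  by decide +kernel,
  by decide +kernel,
  by decide +kernel,
  by decide +kernel,
  by decide +kernel,
  by decide +kernel,
  by decide +kernel,
  by decide +kernel,
  by decide +kernel,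
  by decide +kernel,
  by decide +kernel,
  by decide +kernel,
  by decide +kernel,
  by decide +kernel,
  by decide +kernel,
  by decide +kernel,
  by decide +kernel,
  trivial⟩

noncomputable def g7_0_l : List Gp := [⟨(nat_lit 0), (nat_lit 9), (nat_lit 0), (nat_lit 14), (nat_lit 1), (nat_lit 39), (nat_lit 67), (nat_lit 8), (nat_lit 112), (nat_lit 29)⟩,
  ⟨(nat_lit 0), (nat_lit 3), (nat_lit 14), (nat_lit 9), (nat_lit 1), (nat_lit 39), (nat_lit 79), (nat_lit 11), (nat_lit 99), (nat_lit 41)⟩,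
  ⟨(nat_lit 0), (nat_lit 3), (nat_lit 23), (nat_lit 13), (nat_lit 1), (nat_lit 39), (nat_lit 86), (nat_lit 12), (nat_lit 156), (nat_lit 48)⟩,
  ⟨(nat_lit 3), (nat_lit 3), (nat_lit 14), (nat_lit 22), (nat_lit 1), (nat_lit 47), (nat_lit 86), (nat_lit 10), (nat_lit 220), (nat_lit 40)⟩,
  ⟨(nat_lit 0), (nat_lit 3), (nat_lit 36), (nat_lit 17), (nat_lit 1), (nat_lit 39), (nat_lit 93), (nat_lit 14), (nat_lit 238), (nat_lit 55)⟩,
  ⟨(nat_lit 0), (nat_lit 3), (nat_lit 53), (nat_lit 16), (nat_lit 1), (nat_lit 39), (nat_lit 100), (nat_lit 16), (nat_lit 256), (nat_lit 62)⟩,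
  ⟨(nat_lit 3), (nat_lit 3), (nat_lit 36), (nat_lit 17), (nat_lit 1), (nat_lit 47), (nat_lit 93), (nat_lit 12), (nat_lit 204), (nat_lit 47)⟩,
  ⟨(nat_lit 3), (nat_lit 3), (nat_lit 53), (nat_lit 16), (nat_lit 1), (nat_lit 47), (nat_lit 100), (nat_lit 14), (nat_lit 224), (nat_lit 54)⟩,
  ⟨(nat_lit 6), (nat_lit 4), (nat_lit 14), (nat_lit 22), (nat_lit 1), (nat_lit 58), (nat_lit 86), (nat_lit 8), (nat_lit 176), (nat_lit 29)⟩,
  ⟨(nat_lit 6), (nat_lit 4), (nat_lit 36), (nat_lit 17), (nat_lit 1), (nat_lit 58), (nat_lit 93), (nat_lit 9), (nat_lit 153), (nat_lit 36)⟩,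
  ⟨(nat_lit 6), (nat_lit 4), (nat_lit 53), (nat_lit 16), (nat_lit 1), (nat_lit 58), (nat_lit 100), (nat_lit 11), (nat_lit 176), (nat_lit 43)⟩,
  ⟨(nat_lit 10), (nat_lit 12), (nat_lit 15), (nat_lit 21), (nat_lit 1), (nat_lit 73), (nat_lit 86), (nat_lit 4), (nat_lit 84), (nat_lit 14)⟩,
  ⟨(nat_lit 10), (nat_lit 6), (nat_lit 36), (nat_lit 33), (nat_lit 1), (nat_lit 73), (nat_lit 100), (nat_lit 7), (nat_lit 231), (nat_lit 28)⟩,
  ⟨(nat_lit 16), (nat_lit 6), (nat_lit 36), (nat_lit 33), (nat_lit 1), (nat_lit 80), (nat_lit 100), (nat_lit 6), (nat_lit 198), (nat_lit 21)⟩,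
  ⟨(nat_lit 22), (nat_lit 8), (nat_lit 36), (nat_lit 33), (nat_lit 1), (nat_lit 87), (nat_lit 100), (nat_lit 4), (nat_lit 132), (nat_lit 14)⟩]

theorem g7_0 : AllB (okG ⟨cf3, d7, e7, m7, g7, h7, (nat_lit 26), (nat_lit 208), (nat_lit 100)⟩ z7) g7_0_l :=
  ⟨by decide +kernel,
  by decide +kernel,
  by decide +kernel,
  by decide +kernel,
  by decide +kernel,
  by decide +kernel,
  by decide +kernel,
  by decide +kernel,
  by decide +kernel,
  by decide +kernel,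
  by decide +kernel,
  by decide +kernel,
  by decide +kernel,
  by decide +kernel,
  by decide +kernel,
  trivial⟩

noncomputable def g8_0_l : List Gp := [⟨(nat_lit 0), (nat_lit 5), (nat_lit 0), (nat_lit 26), (nat_lit 1), (nat_lit 43), (nat_lit 73), (nat_lit 8), (nat_lit 208), (nat_lit 31)⟩,
  ⟨(nat_lit 5), (nat_lit 7), (nat_lit 5), (nat_lit 21), (nat_lit 1), (nat_lit 56), (nat_lit 73), (nat_lit 5), (nat_lit 105), (nat_lit 18)⟩,
  ⟨(nat_lit 0), (nat_lit 5), (nat_lit 26), (nat_lit 10), (nat_lit 1), (nat_lit 43), (nat_lit 87), (nat_lit 12), (nat_lit 120), (nat_lit 45)⟩,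
  ⟨(nat_lit 5), (nat_lit 7), (nat_lit 26), (nat_lit 10), (nat_lit 1), (nat_lit 56), (nat_lit 87), (nat_lit 8), (nat_lit 80), (nat_lit 32)⟩,
  ⟨(nat_lit 0), (nat_lit 2), (nat_lit 36), (nat_lit 11), (nat_lit 1), (nat_lit 43), (nat_lit 94), (nat_lit 13), (nat_lit 143), (nat_lit 52)⟩,
  ⟨(nat_lit 2), (nat_lit 3), (nat_lit 36), (nat_lit 11), (nat_lit 1), (nat_lit 51), (nat_lit 94), (nat_lit 11), (nat_lit 121), (nat_lit 44)⟩,
  ⟨(nat_lit 0), (nat_lit 2), (nat_lit 47), (nat_lit 12), (nat_lit 1), (nat_lit 43), (nat_lit 100), (nat_lit 15), (nat_lit 180), (nat_lit 58)⟩,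
  ⟨(nat_lit 2), (nat_lit 3), (nat_lit 47), (nat_lit 12), (nat_lit 1), (nat_lit 51), (nat_lit 100), (nat_lit 13), (nat_lit 156), (nat_lit 50)⟩,
  ⟨(nat_lit 5), (nat_lit 7), (nat_lit 36), (nat_lit 11), (nat_lit 1), (nat_lit 56), (nat_lit 94), (nat_lit 10), (nat_lit 110), (nat_lit 39)⟩,
  ⟨(nat_lit 5), (nat_lit 3), (nat_lit 47), (nat_lit 12), (nat_lit 1), (nat_lit 56), (nat_lit 100), (nat_lit 12), (nat_lit 144), (nat_lit 45)⟩]

theorem g8_0 : AllB (okG ⟨cf3, d8, e8, m8, g8, h8, (nat_lit 26), (nat_lit 208), (nat_lit 100)⟩ z8) g8_0_l :=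
  ⟨by decide +kernel,
  by decide +kernel,
  by decide +kernel,
  by decide +kernel,
  by decide +kernel,
  by decide +kernel,
  by decide +kernel,
  by decide +kernel,
  by decide +kernel,
  by decide +kernel,
  trivial⟩

end Vale.Agent.P236KE.Y100
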