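import Vale.Agent.P236KE.Y100.Cnt
import Vale.Agent.P236KE.Yr
import Vale.Agent.P236KE.Y100.K1
import Vale.Agent.P236KE.Y100.G2
import Vale.Agent.P236KE.Y100.G3

/-!
# P236KE / Y100 : assembly (generated)
-/

set_option maxRecDepth 100000

namespace Vale.Agent.P236KE.Y100

theorem mid5 : midOk m5_t (res.d 6) (res.n 6) 100 = true := by decide +kernel

theorem lo5 (up : DLL) (dup : ℕ) : res.Lo ⟨cf3, d5, up, m5, g5, dup, (nat_lit 26), (nat_lit 208), (nat_lit 100)⟩ 100 5 :=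
  ⟨rfl, rfl, rfl, rfl, rfl, rfl, ⟨_, m5_eq, mid5⟩,
    (by decide : 100 < 117), (by decide : 26 ≤ 32), (by decide : 208 ≤ 300)⟩

theorem kq5 : ∃ k t gs, res.KY 100 5 k t gs :=
  ⟨k5, t5, _, lo5 d6 g7, rfl, rfl, rfl, rfl, rfl, by decide +kernel, k5_0, by decide +kernel⟩

theorem cq5 : res.CQ 100 zs hs ng cs 5 :=
  ⟨⟨_, _, lo5 e5 h5, rfl, (AllB.append g5_0 g5_1), by decide +kernel, by decide +kernel⟩, by decide +kernel⟩

theorem ck5 : Vale.Agent.P236K2.ckD (2 ^ 28) (cs 6) (cs 5) (Sq.pn (res.n 5) (res.d 5) fun _ => []) 101 = true := by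
  decide +kernel

theorem mid6 : midOk m6_t (res.d 7) (res.n 7) 100 = true := by decide +kernel

theorem lo6 (up : DLL) (dup : ℕ) : res.Lo ⟨cf3, d6, up, m6, g6, dup, (nat_lit 26), (nat_lit 208), (nat_lit 100)⟩ 100 6 :=
  ⟨rfl, rfl, rfl, rfl, rfl, rfl, ⟨_, m6_eq, mid6⟩,
    (by decide : 100 < 117), (by decide : 26 ≤ 32), (by decide : 208 ≤ 300)⟩

theorem kq6 : ∃ k t gs, res.KY 100 6 k t gs :=
  ⟨k6, t6, _, lo6 d7 g8, rfl, rfl, rfl, rfl, rfl, by decide +kernel, k6_0, by decide +kernel⟩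

theorem cq6 : res.CQ 100 zs hs ng cs 6 :=
  ⟨⟨_, _, lo6 e6 h6, rfl, g6_0, by decide +kernel, by decide +kernel⟩, by decide +kernel⟩

theorem ck6 : Vale.Agent.P236K2.ckD (2 ^ 28) (cs 7) (cs 6) (Sq.pn (res.n 6) (res.d 6) fun _ => []) 101 = true := by
  decide +kernel

theorem mid7 : midOk m7_t (res.d 8) (res.n 8) 100 = true := by decide +kernel

theorem lo7 (up : DLL) (dup : ℕ) : res.Lo ⟨cf3, d7, up, m7, g7, dup, (nat_lit 26), (nat_lit 208), (nat_lit 100)⟩ 100 7 :=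
  ⟨rfl, rfl, rfl, rfl, rfl, rfl, ⟨_, m7_eq, mid7⟩,
    (by decide : 100 < 117), (by decide : 26 ≤ 32), (by decide : 208 ≤ 300)⟩

theorem kq7 : ∃ k t gs, res.KY 100 7 k t gs :=
  ⟨k7, t7, _, lo7 d8 g9, rfl, rfl, rfl, rfl, rfl, by decide +kernel, k7_0, by decide +kernel⟩

theorem cq7 : res.CQ 100 zs hs ng cs 7 :=
  ⟨⟨_, _, lo7 e7 h7, rfl, g7_0, by decide +kernel, by decide +kernel⟩, by decide +kernel⟩

theorem ck7 : Vale.Agent.P236K2.ckD (2 ^ 28) (cs 8) (cs 7) (Sq.pn (res.n 7) (res.d 7) fun _ => []) 101 = true := by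
  decide +kernel

end Vale.Agent.P236KE.Y100
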