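import Vale.Agent.P236KE.Y100.Cnt
import Vale.Agent.P236KE.Yr
import Vale.Agent.P236KE.Y100.K1
import Vale.Agent.P236KE.Y100.G3
import Vale.Agent.P236KE.Y100.G4

/-!
# P236KE / Y100 : assembly (generated)
-/

set_option maxRecDepth 100000

namespace Vale.Agent.P236KE.Y100

theorem mid8 : midOk m8_t (res.d 9) (res.n 9) 100 = true := by decide +kernel

theorem lo8 (up : DLL) (dup : ℕ) : res.Lo ⟨cf3, d8, up, m8, g8, dup, (nat_lit 26), (nat_lit 208), (nat_lit 100)⟩ 100 8 :=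
  ⟨rfl, rfl, rfl, rfl, rfl, rfl, ⟨_, m8_eq, mid8⟩,
    (by decide : 100 < 117), (by decide : 26 ≤ 32), (by decide : 208 ≤ 300)⟩

theorem kq8 : ∃ k t gs, res.KY 100 8 k t gs :=
  ⟨k8, t8, _, lo8 d9 g10, rfl, rfl, rfl, rfl, rfl, by decide +kernel, k8_0, by decide +kernel⟩

theorem cq8 : res.CQ 100 zs hs ng cs 8 :=
  ⟨⟨_, _, lo8 e8 h8, rfl, (AllB.append g8_0 g8_1), by decide +kernel, by decide +kernel⟩, by decide +kernel⟩

theorem ck8 : Vale.Agent.P236K2.ckD (2 ^ 28) (cs 9) (cs 8) (Sq.pn (res.n 8) (res.d 8) fun _ => []) 101 = true := by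
  decide +kernel

theorem mid9 : midOk m9_t (res.d 10) (res.n 10) 100 = true := by decide +kernel

theorem lo9 (up : DLL) (dup : ℕ) : res.Lo ⟨cf3, d9, up, m9, g9, dup, (nat_lit 26), (nat_lit 208), (nat_lit 100)⟩ 100 9 :=
  ⟨rfl, rfl, rfl, rfl, rfl, rfl, ⟨_, m9_eq, mid9⟩,
    (by decide : 100 < 117), (by decide : 26 ≤ 32), (by decide : 208 ≤ 300)⟩

theorem kq9 : ∃ k t gs, res.KY 100 9 k t gs :=
  ⟨k9, t9, _, lo9 d10 g11, rfl, rfl, rfl, rfl, rfl, by decide +kernel, k9_0, by decide +kernel⟩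

theorem cq9 : res.CQ 100 zs hs ng cs 9 :=
  ⟨⟨_, _, lo9 e9 h9, rfl, g9_0, by decide +kernel, by decide +kernel⟩, by decide +kernel⟩

theorem ck9 : Vale.Agent.P236K2.ckD (2 ^ 28) (cs 10) (cs 9) (Sq.pn (res.n 9) (res.d 9) fun _ => []) 101 = true := by
  decide +kernel

theorem mid10 : midOk m10_t (res.d 11) (res.n 11) 100 = true := by decide +kernel

theorem lo10 (up : DLL) (dup : ℕ) : res.Lo ⟨cf3, d10, up, m10, g10, dup, (nat_lit 26), (nat_lit 208), (nat_lit 100)⟩ 100 10 :=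
  ⟨rfl, rfl, rfl, rfl, rfl, rfl, ⟨_, m10_eq, mid10⟩,
    (by decide : 100 < 117), (by decide : 26 ≤ 32), (by decide : 208 ≤ 300)⟩

theorem kq10 : ∃ k t gs, res.KY 100 10 k t gs :=
  ⟨k10, t10, _, lo10 d11 g12, rfl, rfl, rfl, rfl, rfl, by decide +kernel, k10_0, by decide +kernel⟩

theorem cq10 : res.CQ 100 zs hs ng cs 10 :=
  ⟨⟨_, _, lo10 e10 h10, rfl, g10_0, by decide +kernel, by decide +kernel⟩, by decide +kernel⟩

theorem ck10 : Vale.Agent.P236K2.ckD (2 ^ 28) (cs 11) (cs 10) (Sq.pn (res.n 10) (res.d 10) fun _ => []) 101 = true := by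
  decide +kernel

end Vale.Agent.P236KE.Y100
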