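import Vale.Agent.P236KE.Y100.A0
import Vale.Agent.P236KE.Y100.A5
import Vale.Agent.P236KE.Y100.A8
import Vale.Agent.P236KE.Y100.A11

/-!
# P236KE / Y100 : the resolution is correct (generated)
-/

set_option maxRecDepth 100000

namespace Vale.Agent.P236KE.Y100

open Vale.Agent.P236EL Vale.Agent.P236F Vale.Agent.P251.F Vale.Agent.P251.I

theorem kq : ∀ q, q + 1 < 18 → ∃ k t gs, res.KY 100 q k t gs
  | 0, _ => kq0
  | 1, _ => kq1
  | 2, _ => kq2
  | 3, _ => kq3
  | 4, _ => kq4
  | 5, _ => kq5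
  | 6, _ => kq6
  | 7, _ => kq7
  | 8, _ => kq8
  | 9, _ => kq9
  | 10, _ => kq10
  | 11, _ => kq11
  | 12, _ => kq12
  | 13, _ => kq13
  | 14, _ => kq14
  | 15, _ => kq15
  | 16, _ => kq16
  | q + 17, h => absurd h (by omega)

theorem cq : ∀ q, q < 18 → res.CQ 100 zs hs ng cs q
  | 0, _ => cq0
  | 1, _ => cq1
  | 2, _ => cq2
  | 3, _ => cq3
  | 4, _ => cq4
  | 5, _ => cq5
  | 6, _ => cq6
  | 7, _ => cq7
  | 8, _ => cq8
  | 9, _ => cq9
  | 10, _ => cq10
  | 11, _ => cq11
  | 12, _ => cq12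
  | 13, _ => cq13
  | 14, _ => cq14
  | 15, _ => cq15
  | 16, _ => cq16
  | 17, _ => cq17
  | q + 18, h => absurd h (by omega)

theorem ck : ∀ q, q + 1 < 18 → Vale.Agent.P236K2.ckD (2 ^ 28) (cs (q + 1)) (cs q)
    (Sq.pn (res.n q) (res.d q) fun _ => []) 101 = true
  | 0, _ => ck0
  | 1, _ => ck1
  | 2, _ => ck2
  | 3, _ => ck3
  | 4, _ => ck4
  | 5, _ => ck5
  | 6, _ => ck6
  | 7, _ => ck7
  | 8, _ => ck8
  | 9, _ => ck9
  | 10, _ => ck10
  | 11, _ => ck11
  | 12, _ => ck12
  | 13, _ => ck13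
  | 14, _ => ck14
  | 15, _ => ck15
  | 16, _ => ck16
  | q + 17, h => absurd h (by omega)

/-- the least weight of a generator in degree `s` (`101` if there is none up to weight `100`) -/
def mn (s : ℕ) : ℕ := [0, 3, 7, 13, 18, 22, 34, 39, 43, 49, 54, 58, 70, 75, 79, 85, 90, 94].getD s 101

theorem mn_le : ∀ s < 18, ∀ g < res.n s, mn s ≤ byte (res.d s) g := by decide +kernel

theorem nn_lt : res.nn < 2 ^ (8 * 18) := by decide +kernel

variable [Fact (Nat.Prime 3)]

/-- **The resolution of the three cell complex in weights at most 100.** -/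
theorem ok : res.ry.Ok (RingHom.id _) 1 18 (100 : ℕ) :=
  Sq.oky (by decide) (by decide) (by decide +kernel) (by decide +kernel) kq cq
    (by decide +kernel) ck

/-- **The cohomology of the three cell complex vanishes below the least generator.** -/
theorem vy {t : Cob Laz 1} (ht : IsT1 3 t) {w : ℤ} {s : ℕ} (hw : w < mn s) : VY t w s := by
  by_cases hs : s < 18
  · have h1 : ∀ s < 18, mn s ≤ 100 := by decide
    have h2 := h1 s hs
    exact Sq.vy ok nn_lt ht (by omega) fun g hg => by have := mn_le s hs g hg; omega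
  · rw [mn, List.getD_eq_default _ _ (Nat.le_of_not_lt hs)] at hw
    refine Sq.vy ok nn_lt ht (by omega) fun g hg => ?_
    change g < (res.nn >>> (8 * s)) &&& 255 at hg
    rw [Nat.shiftRight_eq_zero _ _ (nn_lt.trans_le (Nat.pow_le_pow_right (by omega) (by omega))),
      Nat.zero_and] at hg
    omega

/-- **Vanishing in degrees at least 18 and weights at most 100.** -/
theorem vy18 {t : Cob Laz 1} (ht : IsT1 3 t) {w : ℤ} {s : ℕ} (hs : 18 ≤ s) (hw : w ≤ 100) :
    VY t w s := vy ht (by rw [mn, List.getD_eq_default _ _ hs]; omega)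

end Vale.Agent.P236KE.Y100
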