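import Vale.Agent.P236KE.Y100.Cnt

/-!
# P236KE / Y100 : checks (generated)
-/

set_option maxRecDepth 100000

namespace Vale.Agent.P236KE.Y100

noncomputable def g0_0_l : List Gp := [⟨(nat_lit 0), (nat_lit 1), (nat_lit 0), (nat_lit 9), (nat_lit 1), (nat_lit 0), (nat_lit 40), (nat_lit 11), (nat_lit 99), (nat_lit 41)⟩,
  ⟨(nat_lit 0), (nat_lit 1), (nat_lit 9), (nat_lit 1), (nat_lit 1), (nat_lit 0), (nat_lit 81), (nat_lit 21), (nat_lit 22), (nat_lit 82)⟩]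

theorem g0_0 : AllB (okG ⟨cf3, d0, e0, m0, g0, h0, (nat_lit 26), (nat_lit 208), (nat_lit 100)⟩ z0) g0_0_l :=
  ⟨by decide +kernel,
  by decide +kernel,
  trivial⟩

noncomputable def g1_0_l : List Gp := [⟨(nat_lit 0), (nat_lit 4), (nat_lit 0), (nat_lit 10), (nat_lit 1), (nat_lit 3), (nat_lit 27), (nat_lit 7), (nat_lit 70), (nat_lit 25)⟩,
  ⟨(nat_lit 0), (nat_lit 4), (nat_lit 10), (nat_lit 9), (nat_lit 1), (nat_lit 3), (nat_lit 48), (nat_lit 12), (nat_lit 108), (nat_lit 46)⟩,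
  ⟨(nat_lit 0), (nat_lit 3), (nat_lit 19), (nat_lit 2), (nat_lit 1), (nat_lit 3), (nat_lit 63), (nat_lit 16), (nat_lit 49), (nat_lit 61)⟩,
  ⟨(nat_lit 3), (nat_lit 1), (nat_lit 19), (nat_lit 2), (nat_lit 1), (nat_lit 27), (nat_lit 63), (nat_lit 10), (nat_lit 20), (nat_lit 37)⟩,
  ⟨(nat_lit 0), (nat_lit 3), (nat_lit 21), (nat_lit 4), (nat_lit 1), (nat_lit 3), (nat_lit 81), (nat_lit 20), (nat_lit 80), (nat_lit 79)⟩,
  ⟨(nat_lit 0), (nat_lit 3), (nat_lit 25), (nat_lit 3), (nat_lit 1), (nat_lit 3), (nat_lit 90), (nat_lit 22), (nat_lit 67), (nat_lit 88)⟩,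
  ⟨(nat_lit 3), (nat_lit 1), (nat_lit 21), (nat_lit 7), (nat_lit 1), (nat_lit 27), (nat_lit 90), (nat_lit 16), (nat_lit 112), (nat_lit 64)⟩,
  ⟨(nat_lit 4), (nat_lit 1), (nat_lit 24), (nat_lit 4), (nat_lit 1), (nat_lit 81), (nat_lit 90), (nat_lit 3), (nat_lit 12), (nat_lit 10)⟩]

theorem g1_0 : AllB (okG ⟨cf3, d1, e1, m1, g1, h1, (nat_lit 26), (nat_lit 208), (nat_lit 100)⟩ z1) g1_0_l :=
  ⟨by decide +kernel,
  by decide +kernel,
  by decide +kernel,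
  by decide +kernel,
  by decide +kernel,
  by decide +kernel,
  by decide +kernel,
  by decide +kernel,
  trivial⟩

noncomputable def g2_0_l : List Gp := [⟨(nat_lit 0), (nat_lit 10), (nat_lit 0), (nat_lit 19), (nat_lit 1), (nat_lit 7), (nat_lit 34), (nat_lit 7), (nat_lit 133), (nat_lit 28)⟩,
  ⟨(nat_lit 0), (nat_lit 7), (nat_lit 19), (nat_lit 5), (nat_lit 1), (nat_lit 7), (nat_lit 45), (nat_lit 10), (nat_lit 71), (nat_lit 39)⟩,
  ⟨(nat_lit 0), (nat_lit 2), (nat_lit 24), (nat_lit 11), (nat_lit 1), (nat_lit 7), (nat_lit 55), (nat_lit 13), (nat_lit 143), (nat_lit 49)⟩,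
  ⟨(nat_lit 2), (nat_lit 5), (nat_lit 24), (nat_lit 11), (nat_lit 1), (nat_lit 15), (nat_lit 55), (nat_lit 11), (nat_lit 121), (nat_lit 41)⟩,
  ⟨(nat_lit 7), (nat_lit 4), (nat_lit 19), (nat_lit 16), (nat_lit 1), (nat_lit 27), (nat_lit 55), (nat_lit 8), (nat_lit 128), (nat_lit 29)⟩,
  ⟨(nat_lit 0), (nat_lit 2), (nat_lit 35), (nat_lit 5), (nat_lit 1), (nat_lit 7), (nat_lit 63), (nat_lit 15), (nat_lit 75), (nat_lit 57)⟩,
  ⟨(nat_lit 2), (nat_lit 5), (nat_lit 35), (nat_lit 5), (nat_lit 1), (nat_lit 15), (nat_lit 63), (nat_lit 13), (nat_lit 66), (nat_lit 49)⟩,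
  ⟨(nat_lit 0), (nat_lit 2), (nat_lit 40), (nat_lit 7), (nat_lit 1), (nat_lit 7), (nat_lit 75), (nat_lit 18), (nat_lit 126), (nat_lit 69)⟩,
  ⟨(nat_lit 2), (nat_lit 3), (nat_lit 40), (nat_lit 7), (nat_lit 1), (nat_lit 15), (nat_lit 75), (nat_lit 16), (nat_lit 112), (nat_lit 61)⟩,
  ⟨(nat_lit 5), (nat_lit 2), (nat_lit 40), (nat_lit 7), (nat_lit 1), (nat_lit 21), (nat_lit 75), (nat_lit 14), (nat_lit 98), (nat_lit 55)⟩,
  ⟨(nat_lit 7), (nat_lit 4), (nat_lit 35), (nat_lit 5), (nat_lit 1), (nat_lit 27), (nat_lit 63), (nat_lit 10), (nat_lit 50), (nat_lit 37)⟩,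
  ⟨(nat_lit 7), (nat_lit 4), (nat_lit 40), (nat_lit 7), (nat_lit 1), (nat_lit 27), (nat_lit 75), (nat_lit 13), (nat_lit 91), (nat_lit 49)⟩,
  ⟨(nat_lit 0), (nat_lit 2), (nat_lit 47), (nat_lit 3), (nat_lit 1), (nat_lit 7), (nat_lit 80), (nat_lit 19), (nat_lit 57), (nat_lit 74)⟩,
  ⟨(nat_lit 0), (nat_lit 2), (nat_lit 50), (nat_lit 5), (nat_lit 1), (nat_lit 7), (nat_lit 88), (nat_lit 21), (nat_lit 105), (nat_lit 82)⟩,
  ⟨(nat_lit 2), (nat_lit 3), (nat_lit 47), (nat_lit 3), (nat_lit 1), (nat_lit 15), (nat_lit 80), (nat_lit 17), (nat_lit 52), (nat_lit 66)⟩,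
  ⟨(nat_lit 5), (nat_lit 2), (nat_lit 47), (nat_lit 3), (nat_lit 1), (nat_lit 21), (nat_lit 80), (nat_lit 15), (nat_lit 45), (nat_lit 60)⟩,
  ⟨(nat_lit 2), (nat_lit 3), (nat_lit 50), (nat_lit 5), (nat_lit 1), (nat_lit 15), (nat_lit 88), (nat_lit 19), (nat_lit 95), (nat_lit 74)⟩,
  ⟨(nat_lit 5), (nat_lit 2), (nat_lit 50), (nat_lit 5), (nat_lit 1), (nat_lit 21), (nat_lit 88), (nat_lit 17), (nat_lit 85), (nat_lit 68)⟩,
  ⟨(nat_lit 0), (nat_lit 2), (nat_lit 55), (nat_lit 3), (nat_lit 1), (nat_lit 7), (nat_lit 90), (nat_lit 21), (nat_lit 63), (nat_lit 84)⟩,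
  ⟨(nat_lit 0), (nat_lit 2), (nat_lit 58), (nat_lit 3), (nat_lit 1), (nat_lit 7), (nat_lit 98), (nat_lit 23), (nat_lit 69), (nat_lit 92)⟩,
  ⟨(nat_lit 2), (nat_lit 3), (nat_lit 55), (nat_lit 3), (nat_lit 1), (nat_lit 15), (nat_lit 90), (nat_lit 19), (nat_lit 58), (nat_lit 76)⟩,
  ⟨(nat_lit 5), (nat_lit 2), (nat_lit 55), (nat_lit 3), (nat_lit 1), (nat_lit 21), (nat_lit 90), (nat_lit 18), (nat_lit 54), (nat_lit 70)⟩,
  ⟨(nat_lit 2), (nat_lit 3), (nat_lit 58), (nat_lit 3), (nat_lit 1), (nat_lit 15), (nat_lit 98), (nat_lit 21), (nat_lit 64), (nat_lit 84)⟩,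
  ⟨(nat_lit 5), (nat_lit 2), (nat_lit 58), (nat_lit 3), (nat_lit 1), (nat_lit 21), (nat_lit 98), (nat_lit 20), (nat_lit 60), (nat_lit 78)⟩,
  ⟨(nat_lit 7), (nat_lit 3), (nat_lit 47), (nat_lit 8), (nat_lit 1), (nat_lit 27), (nat_lit 88), (nat_lit 16), (nat_lit 128), (nat_lit 62)⟩,
  ⟨(nat_lit 10), (nat_lit 1), (nat_lit 47), (nat_lit 8), (nat_lit 1), (nat_lit 45), (nat_lit 88), (nat_lit 11), (nat_lit 88), (nat_lit 44)⟩,
  ⟨(nat_lit 7), (nat_lit 3), (nat_lit 55), (nat_lit 6), (nat_lit 1), (nat_lit 27), (nat_lit 98), (nat_lit 18), (nat_lit 108), (nat_lit 72)⟩,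
  ⟨(nat_lit 10), (nat_lit 1), (nat_lit 55), (nat_lit 6), (nat_lit 1), (nat_lit 45), (nat_lit 98), (nat_lit 14), (nat_lit 84), (nat_lit 54)⟩,
  ⟨(nat_lit 11), (nat_lit 5), (nat_lit 39), (nat_lit 22), (nat_lit 1), (nat_lit 63), (nat_lit 98), (nat_lit 9), (nat_lit 198), (nat_lit 36)⟩]

theorem g2_0 : AllB (okG ⟨cf3, d2, e2, m2, g2, h2, (nat_lit 26), (nat_lit 208), (nat_lit 100)⟩ z2) g2_0_l :=
  ⟨by decide +kernel,
  by decide +kernel,
  by decide +kernel,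
  by decide +kernel,
  by decide +kernel,
  by decide +kernel,
  by decide +kernel,
  by decide +kernel,
  by decide +kernel,
  by decide +kernel,
  by decide +kernel,
  by decide +kernel,
  by decide +kernel,
  by decide +kernel,
  by decide +kernel,
  by decide +kernel,
  by decide +kernel,
  by decide +kernel,
  by decide +kernel,
  by decide +kernel,
  by decide +kernel,
  by decide +kernel,
  by decide +kernel,
  by decide +kernel,
  by decide +kernel,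
  by decide +kernel,
  by decide +kernel,
  by decide +kernel,
  by decide +kernel,
  trivial⟩

noncomputable def g3_0_l : List Gp := [⟨(nat_lit 0), (nat_lit 6), (nat_lit 0), (nat_lit 24), (nat_lit 1), (nat_lit 13), (nat_lit 38), (nat_lit 7), (nat_lit 168), (nat_lit 26)⟩,
  ⟨(nat_lit 6), (nat_lit 6), (nat_lit 2), (nat_lit 22), (nat_lit 1), (nat_lit 24), (nat_lit 38), (nat_lit 4), (nat_lit 88), (nat_lit 15)⟩,
  ⟨(nat_lit 0), (nat_lit 6), (nat_lit 24), (nat_lit 12), (nat_lit 1), (nat_lit 13), (nat_lit 49), (nat_lit 10), (nat_lit 120), (nat_lit 37)⟩,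
  ⟨(nat_lit 0), (nat_lit 6), (nat_lit 36), (nat_lit 11), (nat_lit 1), (nat_lit 13), (nat_lit 59), (nat_lit 12), (nat_lit 132), (nat_lit 47)⟩,
  ⟨(nat_lit 6), (nat_lit 6), (nat_lit 24), (nat_lit 12), (nat_lit 1), (nat_lit 24), (nat_lit 49), (nat_lit 7), (nat_lit 84), (nat_lit 26)⟩,
  ⟨(nat_lit 6), (nat_lit 6), (nat_lit 36), (nat_lit 11), (nat_lit 1), (nat_lit 24), (nat_lit 59), (nat_lit 9), (nat_lit 99), (nat_lit 36)⟩,
  ⟨(nat_lit 12), (nat_lit 4), (nat_lit 19), (nat_lit 28), (nat_lit 1), (nat_lit 36), (nat_lit 59), (nat_lit 6), (nat_lit 168), (nat_lit 24)⟩,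
  ⟨(nat_lit 0), (nat_lit 2), (nat_lit 47), (nat_lit 18), (nat_lit 1), (nat_lit 13), (nat_lit 65), (nat_lit 14), (nat_lit 252), (nat_lit 53)⟩,
  ⟨(nat_lit 2), (nat_lit 4), (nat_lit 47), (nat_lit 18), (nat_lit 1), (nat_lit 18), (nat_lit 65), (nat_lit 12), (nat_lit 216), (nat_lit 48)⟩,
  ⟨(nat_lit 0), (nat_lit 2), (nat_lit 65), (nat_lit 11), (nat_lit 1), (nat_lit 13), (nat_lit 70), (nat_lit 15), (nat_lit 165), (nat_lit 58)⟩,
  ⟨(nat_lit 2), (nat_lit 4), (nat_lit 65), (nat_lit 11), (nat_lit 1), (nat_lit 18), (nat_lit 70), (nat_lit 14), (nat_lit 154), (nat_lit 53)⟩,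
  ⟨(nat_lit 0), (nat_lit 2), (nat_lit 76), (nat_lit 10), (nat_lit 1), (nat_lit 13), (nat_lit 75), (nat_lit 16), (nat_lit 160), (nat_lit 63)⟩,
  ⟨(nat_lit 2), (nat_lit 4), (nat_lit 76), (nat_lit 10), (nat_lit 1), (nat_lit 18), (nat_lit 75), (nat_lit 15), (nat_lit 150), (nat_lit 58)⟩,
  ⟨(nat_lit 0), (nat_lit 2), (nat_lit 86), (nat_lit 7), (nat_lit 1), (nat_lit 13), (nat_lit 80), (nat_lit 17), (nat_lit 119), (nat_lit 68)⟩,
  ⟨(nat_lit 2), (nat_lit 4), (nat_lit 86), (nat_lit 7), (nat_lit 1), (nat_lit 18), (nat_lit 80), (nat_lit 16), (nat_lit 112), (nat_lit 63)⟩,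
  ⟨(nat_lit 6), (nat_lit 3), (nat_lit 47), (nat_lit 18), (nat_lit 1), (nat_lit 24), (nat_lit 65), (nat_lit 11), (nat_lit 198), (nat_lit 42)⟩,
  ⟨(nat_lit 6), (nat_lit 3), (nat_lit 65), (nat_lit 11), (nat_lit 1), (nat_lit 24), (nat_lit 70), (nat_lit 12), (nat_lit 132), (nat_lit 47)⟩,
  ⟨(nat_lit 9), (nat_lit 3), (nat_lit 47), (nat_lit 18), (nat_lit 1), (nat_lit 30), (nat_lit 65), (nat_lit 9), (nat_lit 162), (nat_lit 36)⟩,
  ⟨(nat_lit 9), (nat_lit 3), (nat_lit 65), (nat_lit 11), (nat_lit 1), (nat_lit 30), (nat_lit 70), (nat_lit 11), (nat_lit 121), (nat_lit 41)⟩,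
  ⟨(nat_lit 6), (nat_lit 3), (nat_lit 76), (nat_lit 10), (nat_lit 1), (nat_lit 24), (nat_lit 75), (nat_lit 13), (nat_lit 130), (nat_lit 52)⟩,
  ⟨(nat_lit 6), (nat_lit 3), (nat_lit 86), (nat_lit 7), (nat_lit 1), (nat_lit 24), (nat_lit 80), (nat_lit 15), (nat_lit 105), (nat_lit 57)⟩,
  ⟨(nat_lit 9), (nat_lit 3), (nat_lit 76), (nat_lit 17), (nat_lit 1), (nat_lit 30), (nat_lit 80), (nat_lit 13), (nat_lit 221), (nat_lit 51)⟩,
  ⟨(nat_lit 0), (nat_lit 2), (nat_lit 93), (nat_lit 5), (nat_lit 1), (nat_lit 13), (nat_lit 83), (nat_lit 18), (nat_lit 90), (nat_lit 71)⟩,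
  ⟨(nat_lit 0), (nat_lit 2), (nat_lit 98), (nat_lit 6), (nat_lit 1), (nat_lit 13), (nat_lit 85), (nat_lit 19), (nat_lit 114), (nat_lit 73)⟩,
  ⟨(nat_lit 2), (nat_lit 4), (nat_lit 93), (nat_lit 5), (nat_lit 1), (nat_lit 18), (nat_lit 83), (nat_lit 17), (nat_lit 85), (nat_lit 66)⟩,
  ⟨(nat_lit 2), (nat_lit 4), (nat_lit 98), (nat_lit 6), (nat_lit 1), (nat_lit 18), (nat_lit 85), (nat_lit 17), (nat_lit 102), (nat_lit 68)⟩,
  ⟨(nat_lit 0), (nat_lit 2), (nat_lit 104), (nat_lit 9), (nat_lit 1), (nat_lit 13), (nat_lit 88), (nat_lit 19), (nat_lit 171), (nat_lit 76)⟩,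
  ⟨(nat_lit 0), (nat_lit 2), (nat_lit 113), (nat_lit 7), (nat_lit 1), (nat_lit 13), (nat_lit 90), (nat_lit 20), (nat_lit 140), (nat_lit 78)⟩,
  ⟨(nat_lit 2), (nat_lit 2), (nat_lit 104), (nat_lit 9), (nat_lit 1), (nat_lit 18), (nat_lit 88), (nat_lit 18), (nat_lit 162), (nat_lit 71)⟩,
  ⟨(nat_lit 4), (nat_lit 2), (nat_lit 104), (nat_lit 9), (nat_lit 1), (nat_lit 20), (nat_lit 88), (nat_lit 18), (nat_lit 162), (nat_lit 69)⟩,
  ⟨(nat_lit 2), (nat_lit 2), (nat_lit 113), (nat_lit 7), (nat_lit 1), (nat_lit 18), (nat_lit 90), (nat_lit 19), (nat_lit 133), (nat_lit 73)⟩,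
  ⟨(nat_lit 4), (nat_lit 2), (nat_lit 113), (nat_lit 7), (nat_lit 1), (nat_lit 20), (nat_lit 90), (nat_lit 18), (nat_lit 126), (nat_lit 71)⟩,
  ⟨(nat_lit 0), (nat_lit 1), (nat_lit 120), (nat_lit 8), (nat_lit 1), (nat_lit 13), (nat_lit 92), (nat_lit 20), (nat_lit 160), (nat_lit 80)⟩,
  ⟨(nat_lit 1), (nat_lit 1), (nat_lit 120), (nat_lit 8), (nat_lit 1), (nat_lit 15), (nat_lit 92), (nat_lit 20), (nat_lit 160), (nat_lit 78)⟩,
  ⟨(nat_lit 0), (nat_lit 1), (nat_lit 128), (nat_lit 7), (nat_lit 1), (nat_lit 13), (nat_lit 94), (nat_lit 21), (nat_lit 147), (nat_lit 82)⟩,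
  ⟨(nat_lit 1), (nat_lit 1), (nat_lit 128), (nat_lit 7), (nat_lit 1), (nat_lit 15), (nat_lit 94), (nat_lit 20), (nat_lit 140), (nat_lit 80)⟩,
  ⟨(nat_lit 2), (nat_lit 2), (nat_lit 120), (nat_lit 8), (nat_lit 1), (nat_lit 18), (nat_lit 92), (nat_lit 19), (nat_lit 152), (nat_lit 75)⟩,
  ⟨(nat_lit 2), (nat_lit 2), (nat_lit 128), (nat_lit 7), (nat_lit 1), (nat_lit 18), (nat_lit 94), (nat_lit 20), (nat_lit 140), (nat_lit 77)⟩,
  ⟨(nat_lit 4), (nat_lit 2), (nat_lit 120), (nat_lit 8), (nat_lit 1), (nat_lit 20), (nat_lit 92), (nat_lit 19), (nat_lit 152), (nat_lit 73)⟩,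
  ⟨(nat_lit 4), (nat_lit 2), (nat_lit 128), (nat_lit 7), (nat_lit 1), (nat_lit 20), (nat_lit 94), (nat_lit 19), (nat_lit 133), (nat_lit 75)⟩,
  ⟨(nat_lit 0), (nat_lit 1), (nat_lit 135), (nat_lit 6), (nat_lit 1), (nat_lit 13), (nat_lit 98), (nat_lit 22), (nat_lit 132), (nat_lit 86)⟩,
  ⟨(nat_lit 1), (nat_lit 1), (nat_lit 135), (nat_lit 6), (nat_lit 1), (nat_lit 15), (nat_lit 98), (nat_lit 21), (nat_lit 126), (nat_lit 84)⟩,
  ⟨(nat_lit 0), (nat_lit 1), (nat_lit 141), (nat_lit 5), (nat_lit 1), (nat_lit 13), (nat_lit 100), (nat_lit 22), (nat_lit 110), (nat_lit 88)⟩,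
  ⟨(nat_lit 1), (nat_lit 1), (nat_lit 141), (nat_lit 5), (nat_lit 1), (nat_lit 15), (nat_lit 100), (nat_lit 22), (nat_lit 110), (nat_lit 86)⟩,
  ⟨(nat_lit 2), (nat_lit 2), (nat_lit 135), (nat_lit 6), (nat_lit 1), (nat_lit 18), (nat_lit 98), (nat_lit 21), (nat_lit 126), (nat_lit 81)⟩,
  ⟨(nat_lit 4), (nat_lit 2), (nat_lit 135), (nat_lit 6), (nat_lit 1), (nat_lit 20), (nat_lit 98), (nat_lit 20), (nat_lit 120), (nat_lit 79)⟩,
  ⟨(nat_lit 2), (nat_lit 2), (nat_lit 141), (nat_lit 5), (nat_lit 1), (nat_lit 18), (nat_lit 100), (nat_lit 21), (nat_lit 105), (nat_lit 83)⟩,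
  ⟨(nat_lit 4), (nat_lit 2), (nat_lit 141), (nat_lit 5), (nat_lit 1), (nat_lit 20), (nat_lit 100), (nat_lit 21), (nat_lit 105), (nat_lit 81)⟩]

theorem g3_0 : AllB (okG ⟨cf3, d3, e3, m3, g3, h3, (nat_lit 26), (nat_lit 208), (nat_lit 100)⟩ z3) g3_0_l :=
  ⟨by decide +kernel,
  by decide +kernel,
  by decide +kernel,
  by decide +kernel,
  by decide +kernel,
  by decide +kernel,
  by decide +kernel,
  by decide +kernel,
  by decide +kernel,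
  by decide +kernel,
  by decide +kernel,
  by decide +kernel,
  by decide +kernel,
  by decide +kernel,
  by decide +kernel,
  by decide +kernel,
  by decide +kernel,
  by decide +kernel,
  by decide +kernel,
  by decide +kernel,
  by decide +kernel,
  by decide +kernel,
  by decide +kernel,
  by decide +kernel,
  by decide +kernel,
  by decide +kernel,
  by decide +kernel,
  by decide +kernel,
  by decide +kernel,
  by decide +kernel,
  by decide +kernel,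
  by decide +kernel,
  by decide +kernel,
  by decide +kernel,
  by decide +kernel,
  by decide +kernel,
  by decide +kernel,
  by decide +kernel,
  by decide +kernel,
  by decide +kernel,
  by decide +kernel,
  by decide +kernel,
  by decide +kernel,
  by decide +kernel,
  by decide +kernel,
  by decide +kernel,
  by decide +kernel,
  by decide +kernel,
  trivial⟩

end Vale.Agent.P236KE.Y100
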