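import Vale.Agent.P236KE.Y100.Cnt

/-!
# P236KE / Y100 : checks (generated)
-/

set_option maxRecDepth 100000

namespace Vale.Agent.P236KE.Y100

noncomputable def g3_1_l : List Gp := [⟨(nat_lit 6), (nat_lit 3), (nat_lit 93), (nat_lit 11), (nat_lit 1), (nat_lit 24), (nat_lit 85), (nat_lit 16), (nat_lit 176), (nat_lit 62)⟩,
  ⟨(nat_lit 6), (nat_lit 3), (nat_lit 104), (nat_lit 9), (nat_lit 1), (nat_lit 24), (nat_lit 88), (nat_lit 17), (nat_lit 153), (nat_lit 65)⟩,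
  ⟨(nat_lit 6), (nat_lit 3), (nat_lit 113), (nat_lit 7), (nat_lit 1), (nat_lit 24), (nat_lit 90), (nat_lit 17), (nat_lit 119), (nat_lit 67)⟩,
  ⟨(nat_lit 9), (nat_lit 3), (nat_lit 93), (nat_lit 11), (nat_lit 1), (nat_lit 30), (nat_lit 85), (nat_lit 14), (nat_lit 154), (nat_lit 56)⟩,
  ⟨(nat_lit 9), (nat_lit 3), (nat_lit 104), (nat_lit 16), (nat_lit 1), (nat_lit 30), (nat_lit 90), (nat_lit 16), (nat_lit 256), (nat_lit 61)⟩,
  ⟨(nat_lit 6), (nat_lit 3), (nat_lit 120), (nat_lit 8), (nat_lit 1), (nat_lit 24), (nat_lit 92), (nat_lit 18), (nat_lit 144), (nat_lit 69)⟩,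
  ⟨(nat_lit 6), (nat_lit 3), (nat_lit 128), (nat_lit 7), (nat_lit 1), (nat_lit 24), (nat_lit 94), (nat_lit 18), (nat_lit 126), (nat_lit 71)⟩,
  ⟨(nat_lit 6), (nat_lit 3), (nat_lit 135), (nat_lit 6), (nat_lit 1), (nat_lit 24), (nat_lit 98), (nat_lit 19), (nat_lit 114), (nat_lit 75)⟩,
  ⟨(nat_lit 6), (nat_lit 3), (nat_lit 141), (nat_lit 5), (nat_lit 1), (nat_lit 24), (nat_lit 100), (nat_lit 20), (nat_lit 100), (nat_lit 77)⟩,
  ⟨(nat_lit 9), (nat_lit 2), (nat_lit 120), (nat_lit 15), (nat_lit 1), (nat_lit 30), (nat_lit 94), (nat_lit 17), (nat_lit 255), (nat_lit 65)⟩,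
  ⟨(nat_lit 11), (nat_lit 1), (nat_lit 120), (nat_lit 15), (nat_lit 1), (nat_lit 34), (nat_lit 94), (nat_lit 16), (nat_lit 240), (nat_lit 61)⟩,
  ⟨(nat_lit 9), (nat_lit 2), (nat_lit 135), (nat_lit 11), (nat_lit 1), (nat_lit 30), (nat_lit 100), (nat_lit 18), (nat_lit 198), (nat_lit 71)⟩,
  ⟨(nat_lit 11), (nat_lit 1), (nat_lit 135), (nat_lit 11), (nat_lit 1), (nat_lit 34), (nat_lit 100), (nat_lit 17), (nat_lit 187), (nat_lit 67)⟩,
  ⟨(nat_lit 12), (nat_lit 2), (nat_lit 47), (nat_lit 29), (nat_lit 1), (nat_lit 36), (nat_lit 70), (nat_lit 9), (nat_lit 261), (nat_lit 35)⟩,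
  ⟨(nat_lit 14), (nat_lit 2), (nat_lit 47), (nat_lit 29), (nat_lit 1), (nat_lit 54), (nat_lit 70), (nat_lit 5), (nat_lit 145), (nat_lit 17)⟩,
  ⟨(nat_lit 12), (nat_lit 2), (nat_lit 76), (nat_lit 17), (nat_lit 1), (nat_lit 36), (nat_lit 80), (nat_lit 12), (nat_lit 204), (nat_lit 45)⟩,
  ⟨(nat_lit 14), (nat_lit 2), (nat_lit 76), (nat_lit 17), (nat_lit 1), (nat_lit 54), (nat_lit 80), (nat_lit 7), (nat_lit 119), (nat_lit 27)⟩,
  ⟨(nat_lit 12), (nat_lit 2), (nat_lit 93), (nat_lit 27), (nat_lit 1), (nat_lit 36), (nat_lit 90), (nat_lit 14), (nat_lit 378), (nat_lit 55)⟩,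
  ⟨(nat_lit 12), (nat_lit 1), (nat_lit 120), (nat_lit 15), (nat_lit 1), (nat_lit 36), (nat_lit 94), (nat_lit 15), (nat_lit 225), (nat_lit 59)⟩,
  ⟨(nat_lit 12), (nat_lit 1), (nat_lit 135), (nat_lit 11), (nat_lit 1), (nat_lit 36), (nat_lit 100), (nat_lit 17), (nat_lit 187), (nat_lit 65)⟩,
  ⟨(nat_lit 13), (nat_lit 1), (nat_lit 120), (nat_lit 26), (nat_lit 1), (nat_lit 45), (nat_lit 100), (nat_lit 14), (nat_lit 364), (nat_lit 56)⟩,
  ⟨(nat_lit 14), (nat_lit 2), (nat_lit 93), (nat_lit 27), (nat_lit 1), (nat_lit 54), (nat_lit 90), (nat_lit 10), (nat_lit 270), (nat_lit 37)⟩,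
  ⟨(nat_lit 14), (nat_lit 2), (nat_lit 120), (nat_lit 26), (nat_lit 1), (nat_lit 54), (nat_lit 100), (nat_lit 12), (nat_lit 312), (nat_lit 47)⟩,
  ⟨(nat_lit 16), (nat_lit 3), (nat_lit 43), (nat_lit 26), (nat_lit 1), (nat_lit 56), (nat_lit 67), (nat_lit 3), (nat_lit 78), (nat_lit 12)⟩,
  ⟨(nat_lit 16), (nat_lit 7), (nat_lit 69), (nat_lit 20), (nat_lit 1), (nat_lit 56), (nat_lit 78), (nat_lit 6), (nat_lit 120), (nat_lit 23)⟩,
  ⟨(nat_lit 16), (nat_lit 3), (nat_lit 89), (nat_lit 26), (nat_lit 1), (nat_lit 56), (nat_lit 89), (nat_lit 9), (nat_lit 234), (nat_lit 34)⟩,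
  ⟨(nat_lit 19), (nat_lit 4), (nat_lit 89), (nat_lit 26), (nat_lit 1), (nat_lit 69), (nat_lit 89), (nat_lit 6), (nat_lit 156), (nat_lit 21)⟩,
  ⟨(nat_lit 16), (nat_lit 3), (nat_lit 115), (nat_lit 20), (nat_lit 1), (nat_lit 56), (nat_lit 94), (nat_lit 10), (nat_lit 200), (nat_lit 39)⟩,
  ⟨(nat_lit 16), (nat_lit 3), (nat_lit 135), (nat_lit 11), (nat_lit 1), (nat_lit 56), (nat_lit 100), (nat_lit 12), (nat_lit 132), (nat_lit 45)⟩,
  ⟨(nat_lit 19), (nat_lit 4), (nat_lit 115), (nat_lit 31), (nat_lit 1), (nat_lit 69), (nat_lit 100), (nat_lit 8), (nat_lit 248), (nat_lit 32)⟩,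
  ⟨(nat_lit 23), (nat_lit 8), (nat_lit 98), (nat_lit 48), (nat_lit 1), (nat_lit 84), (nat_lit 100), (nat_lit 5), (nat_lit 240), (nat_lit 17)⟩]

theorem g3_1 : AllB (okG ⟨cf3, d3, e3, m3, g3, h3, (nat_lit 26), (nat_lit 208), (nat_lit 100)⟩ z3) g3_1_l :=
  ⟨by decide +kernel,
  by decide +kernel,
  by decide +kernel,
  by decide +kernel,
  by decide +kernel,
  by decide +kernel,
  by decide +kernel,
  by decide +kernel,
  by decide +kernel,
  by decide +kernel,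
  by decide +kernel,
  by decide +kernel,
  by decide +kernel,
  by decide +kernel,
  by decide +kernel,
  by decide +kernel,
  by decide +kernel,
  by decide +kernel,
  by decide +kernel,
  by decide +kernel,
  by decide +kernel,
  by decide +kernel,
  by decide +kernel,
  by decide +kernel,
  by decide +kernel,
  by decide +kernel,
  by decide +kernel,
  by decide +kernel,
  by decide +kernel,
  by decide +kernel,
  by decide +kernel,
  trivial⟩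

noncomputable def g4_0_l : List Gp := [⟨(nat_lit 0), (nat_lit 11), (nat_lit 0), (nat_lit 14), (nat_lit 1), (nat_lit 18), (nat_lit 41), (nat_lit 6), (nat_lit 84), (nat_lit 24)⟩,
  ⟨(nat_lit 0), (nat_lit 5), (nat_lit 14), (nat_lit 13), (nat_lit 1), (nat_lit 18), (nat_lit 51), (nat_lit 9), (nat_lit 117), (nat_lit 34)⟩,
  ⟨(nat_lit 0), (nat_lit 5), (nat_lit 27), (nat_lit 14), (nat_lit 1), (nat_lit 18), (nat_lit 61), (nat_lit 11), (nat_lit 154), (nat_lit 44)⟩,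
  ⟨(nat_lit 5), (nat_lit 6), (nat_lit 14), (nat_lit 13), (nat_lit 1), (nat_lit 30), (nat_lit 51), (nat_lit 6), (nat_lit 78), (nat_lit 22)⟩,
  ⟨(nat_lit 5), (nat_lit 6), (nat_lit 27), (nat_lit 14), (nat_lit 1), (nat_lit 30), (nat_lit 61), (nat_lit 8), (nat_lit 112), (nat_lit 32)⟩,
  ⟨(nat_lit 11), (nat_lit 7), (nat_lit 14), (nat_lit 27), (nat_lit 1), (nat_lit 42), (nat_lit 61), (nat_lit 5), (nat_lit 135), (nat_lit 20)⟩,
  ⟨(nat_lit 0), (nat_lit 2), (nat_lit 41), (nat_lit 8), (nat_lit 1), (nat_lit 18), (nat_lit 66), (nat_lit 13), (nat_lit 104), (nat_lit 49)⟩,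
  ⟨(nat_lit 2), (nat_lit 3), (nat_lit 41), (nat_lit 8), (nat_lit 1), (nat_lit 24), (nat_lit 66), (nat_lit 11), (nat_lit 88), (nat_lit 43)⟩,
  ⟨(nat_lit 0), (nat_lit 2), (nat_lit 49), (nat_lit 10), (nat_lit 1), (nat_lit 18), (nat_lit 71), (nat_lit 14), (nat_lit 140), (nat_lit 54)⟩,
  ⟨(nat_lit 2), (nat_lit 3), (nat_lit 49), (nat_lit 10), (nat_lit 1), (nat_lit 24), (nat_lit 71), (nat_lit 12), (nat_lit 120), (nat_lit 48)⟩,
  ⟨(nat_lit 0), (nat_lit 2), (nat_lit 59), (nat_lit 16), (nat_lit 1), (nat_lit 18), (nat_lit 76), (nat_lit 15), (nat_lit 240), (nat_lit 59)⟩,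
  ⟨(nat_lit 2), (nat_lit 3), (nat_lit 59), (nat_lit 16), (nat_lit 1), (nat_lit 24), (nat_lit 76), (nat_lit 14), (nat_lit 224), (nat_lit 53)⟩,
  ⟨(nat_lit 0), (nat_lit 2), (nat_lit 75), (nat_lit 12), (nat_lit 1), (nat_lit 18), (nat_lit 81), (nat_lit 16), (nat_lit 192), (nat_lit 64)⟩,
  ⟨(nat_lit 2), (nat_lit 3), (nat_lit 75), (nat_lit 12), (nat_lit 1), (nat_lit 24), (nat_lit 81), (nat_lit 15), (nat_lit 180), (nat_lit 58)⟩,
  ⟨(nat_lit 5), (nat_lit 6), (nat_lit 41), (nat_lit 18), (nat_lit 1), (nat_lit 30), (nat_lit 71), (nat_lit 11), (nat_lit 198), (nat_lit 42)⟩,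
  ⟨(nat_lit 5), (nat_lit 3), (nat_lit 59), (nat_lit 16), (nat_lit 1), (nat_lit 30), (nat_lit 76), (nat_lit 12), (nat_lit 192), (nat_lit 47)⟩,
  ⟨(nat_lit 8), (nat_lit 3), (nat_lit 59), (nat_lit 16), (nat_lit 1), (nat_lit 36), (nat_lit 76), (nat_lit 11), (nat_lit 176), (nat_lit 41)⟩,
  ⟨(nat_lit 5), (nat_lit 6), (nat_lit 75), (nat_lit 12), (nat_lit 1), (nat_lit 30), (nat_lit 81), (nat_lit 13), (nat_lit 156), (nat_lit 52)⟩,
  ⟨(nat_lit 0), (nat_lit 2), (nat_lit 87), (nat_lit 13), (nat_lit 1), (nat_lit 18), (nat_lit 86), (nat_lit 18), (nat_lit 234), (nat_lit 69)⟩,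
  ⟨(nat_lit 2), (nat_lit 3), (nat_lit 87), (nat_lit 13), (nat_lit 1), (nat_lit 24), (nat_lit 86), (nat_lit 16), (nat_lit 208), (nat_lit 63)⟩,
  ⟨(nat_lit 0), (nat_lit 2), (nat_lit 100), (nat_lit 6), (nat_lit 1), (nat_lit 18), (nat_lit 89), (nat_lit 18), (nat_lit 108), (nat_lit 72)⟩,
  ⟨(nat_lit 0), (nat_lit 1), (nat_lit 106), (nat_lit 12), (nat_lit 1), (nat_lit 18), (nat_lit 91), (nat_lit 19), (nat_lit 228), (nat_lit 74)⟩,
  ⟨(nat_lit 1), (nat_lit 1), (nat_lit 106), (nat_lit 12), (nat_lit 1), (nat_lit 19), (nat_lit 91), (nat_lit 19), (nat_lit 228), (nat_lit 73)⟩,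
  ⟨(nat_lit 2), (nat_lit 3), (nat_lit 100), (nat_lit 6), (nat_lit 1), (nat_lit 24), (nat_lit 89), (nat_lit 17), (nat_lit 102), (nat_lit 66)⟩,
  ⟨(nat_lit 2), (nat_lit 2), (nat_lit 106), (nat_lit 12), (nat_lit 1), (nat_lit 24), (nat_lit 91), (nat_lit 17), (nat_lit 204), (nat_lit 68)⟩,
  ⟨(nat_lit 4), (nat_lit 1), (nat_lit 106), (nat_lit 12), (nat_lit 1), (nat_lit 26), (nat_lit 91), (nat_lit 17), (nat_lit 204), (nat_lit 66)⟩,
  ⟨(nat_lit 0), (nat_lit 1), (nat_lit 118), (nat_lit 10), (nat_lit 1), (nat_lit 18), (nat_lit 93), (nat_lit 19), (nat_lit 190), (nat_lit 76)⟩,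
  ⟨(nat_lit 1), (nat_lit 1), (nat_lit 118), (nat_lit 10), (nat_lit 1), (nat_lit 19), (nat_lit 93), (nat_lit 19), (nat_lit 190), (nat_lit 75)⟩,
  ⟨(nat_lit 0), (nat_lit 2), (nat_lit 128), (nat_lit 6), (nat_lit 1), (nat_lit 18), (nat_lit 94), (nat_lit 20), (nat_lit 120), (nat_lit 77)⟩,
  ⟨(nat_lit 0), (nat_lit 1), (nat_lit 134), (nat_lit 9), (nat_lit 1), (nat_lit 18), (nat_lit 96), (nat_lit 20), (nat_lit 180), (nat_lit 79)⟩,
  ⟨(nat_lit 1), (nat_lit 1), (nat_lit 134), (nat_lit 9), (nat_lit 1), (nat_lit 19), (nat_lit 96), (nat_lit 20), (nat_lit 180), (nat_lit 78)⟩,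
  ⟨(nat_lit 0), (nat_lit 1), (nat_lit 143), (nat_lit 8), (nat_lit 1), (nat_lit 18), (nat_lit 98), (nat_lit 21), (nat_lit 168), (nat_lit 81)⟩,
  ⟨(nat_lit 1), (nat_lit 1), (nat_lit 143), (nat_lit 8), (nat_lit 1), (nat_lit 19), (nat_lit 98), (nat_lit 20), (nat_lit 160), (nat_lit 80)⟩,
  ⟨(nat_lit 0), (nat_lit 1), (nat_lit 151), (nat_lit 6), (nat_lit 1), (nat_lit 18), (nat_lit 99), (nat_lit 21), (nat_lit 126), (nat_lit 82)⟩,
  ⟨(nat_lit 0), (nat_lit 1), (nat_lit 157), (nat_lit 7), (nat_lit 1), (nat_lit 18), (nat_lit 100), (nat_lit 21), (nat_lit 147), (nat_lit 83)⟩,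
  ⟨(nat_lit 1), (nat_lit 1), (nat_lit 151), (nat_lit 6), (nat_lit 1), (nat_lit 19), (nat_lit 99), (nat_lit 21), (nat_lit 126), (nat_lit 81)⟩,
  ⟨(nat_lit 1), (nat_lit 1), (nat_lit 157), (nat_lit 7), (nat_lit 1), (nat_lit 19), (nat_lit 100), (nat_lit 21), (nat_lit 147), (nat_lit 82)⟩,
  ⟨(nat_lit 2), (nat_lit 2), (nat_lit 118), (nat_lit 10), (nat_lit 1), (nat_lit 24), (nat_lit 93), (nat_lit 18), (nat_lit 180), (nat_lit 70)⟩,
  ⟨(nat_lit 2), (nat_lit 2), (nat_lit 128), (nat_lit 6), (nat_lit 1), (nat_lit 24), (nat_lit 94), (nat_lit 18), (nat_lit 108), (nat_lit 71)⟩,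
  ⟨(nat_lit 4), (nat_lit 1), (nat_lit 118), (nat_lit 16), (nat_lit 1), (nat_lit 26), (nat_lit 94), (nat_lit 18), (nat_lit 288), (nat_lit 69)⟩,
  ⟨(nat_lit 2), (nat_lit 2), (nat_lit 134), (nat_lit 9), (nat_lit 1), (nat_lit 24), (nat_lit 96), (nat_lit 19), (nat_lit 171), (nat_lit 73)⟩,
  ⟨(nat_lit 4), (nat_lit 1), (nat_lit 134), (nat_lit 9), (nat_lit 1), (nat_lit 26), (nat_lit 96), (nat_lit 18), (nat_lit 162), (nat_lit 71)⟩,
  ⟨(nat_lit 2), (nat_lit 2), (nat_lit 143), (nat_lit 8), (nat_lit 1), (nat_lit 24), (nat_lit 98), (nat_lit 19), (nat_lit 152), (nat_lit 75)⟩,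
  ⟨(nat_lit 4), (nat_lit 1), (nat_lit 143), (nat_lit 8), (nat_lit 1), (nat_lit 26), (nat_lit 98), (nat_lit 19), (nat_lit 152), (nat_lit 73)⟩,
  ⟨(nat_lit 2), (nat_lit 1), (nat_lit 151), (nat_lit 13), (nat_lit 1), (nat_lit 24), (nat_lit 100), (nat_lit 20), (nat_lit 260), (nat_lit 77)⟩,
  ⟨(nat_lit 3), (nat_lit 1), (nat_lit 151), (nat_lit 13), (nat_lit 1), (nat_lit 25), (nat_lit 100), (nat_lit 19), (nat_lit 247), (nat_lit 76)⟩]

theorem g4_0 : AllB (okG ⟨cf3, d4, e4, m4, g4, h4, (nat_lit 26), (nat_lit 208), (nat_lit 100)⟩ z4) g4_0_l :=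
  ⟨by decide +kernel,
  by decide +kernel,
  by decide +kernel,
  by decide +kernel,
  by decide +kernel,
  by decide +kernel,
  by decide +kernel,
  by decide +kernel,
  by decide +kernel,
  by decide +kernel,
  by decide +kernel,
  by decide +kernel,
  by decide +kernel,
  by decide +kernel,
  by decide +kernel,
  by decide +kernel,
  by decide +kernel,
  by decide +kernel,
  by decide +kernel,
  by decide +kernel,
  by decide +kernel,
  by decide +kernel,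
  by decide +kernel,
  by decide +kernel,
  by decide +kernel,
  by decide +kernel,
  by decide +kernel,
  by decide +kernel,
  by decide +kernel,
  by decide +kernel,
  by decide +kernel,
  by decide +kernel,
  by decide +kernel,
  by decide +kernel,
  by decide +kernel,
  by decide +kernel,
  by decide +kernel,
  by decide +kernel,
  by decide +kernel,
  by decide +kernel,
  by decide +kernel,
  by decide +kernel,
  by decide +kernel,
  by decide +kernel,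
  by decide +kernel,
  by decide +kernel,
  trivial⟩

end Vale.Agent.P236KE.Y100
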