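import Vale.Agent.P236KE.Y100.Def

/-!
# P236KE / Y100 : checks (generated)
-/

set_option maxRecDepth 100000

namespace Vale.Agent.P236KE.Y100

noncomputable def k0_0_l : List Gp := [⟨(nat_lit 0), (nat_lit 1), (nat_lit 0), (nat_lit 11), (nat_lit 1), (nat_lit 0), (nat_lit 45), (nat_lit 12), (nat_lit 132), (nat_lit 46)⟩,
  ⟨(nat_lit 0), (nat_lit 1), (nat_lit 11), (nat_lit 1), (nat_lit 1), (nat_lit 0), (nat_lit 63), (nat_lit 16), (nat_lit 17), (nat_lit 64)⟩,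
  ⟨(nat_lit 0), (nat_lit 1), (nat_lit 12), (nat_lit 4), (nat_lit 1), (nat_lit 0), (nat_lit 90), (nat_lit 23), (nat_lit 92), (nat_lit 91)⟩]

theorem k0_0 : AllB (okS k0 [t0]) k0_0_l :=
  ⟨by decide +kernel,
  by decide +kernel,
  by decide +kernel,
  trivial⟩

noncomputable def k1_0_l : List Gp := [⟨(nat_lit 0), (nat_lit 4), (nat_lit 0), (nat_lit 12), (nat_lit 1), (nat_lit 3), (nat_lit 34), (nat_lit 8), (nat_lit 96), (nat_lit 32)⟩,
  ⟨(nat_lit 0), (nat_lit 4), (nat_lit 12), (nat_lit 4), (nat_lit 1), (nat_lit 3), (nat_lit 55), (nat_lit 14), (nat_lit 57), (nat_lit 53)⟩,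
  ⟨(nat_lit 0), (nat_lit 3), (nat_lit 16), (nat_lit 3), (nat_lit 1), (nat_lit 3), (nat_lit 63), (nat_lit 16), (nat_lit 49), (nat_lit 61)⟩,
  ⟨(nat_lit 0), (nat_lit 3), (nat_lit 19), (nat_lit 4), (nat_lit 1), (nat_lit 3), (nat_lit 72), (nat_lit 18), (nat_lit 72), (nat_lit 70)⟩,
  ⟨(nat_lit 3), (nat_lit 1), (nat_lit 16), (nat_lit 7), (nat_lit 1), (nat_lit 27), (nat_lit 72), (nat_lit 12), (nat_lit 84), (nat_lit 46)⟩,
  ⟨(nat_lit 0), (nat_lit 2), (nat_lit 23), (nat_lit 5), (nat_lit 1), (nat_lit 3), (nat_lit 90), (nat_lit 22), (nat_lit 110), (nat_lit 88)⟩,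
  ⟨(nat_lit 2), (nat_lit 1), (nat_lit 23), (nat_lit 5), (nat_lit 1), (nat_lit 9), (nat_lit 90), (nat_lit 21), (nat_lit 105), (nat_lit 82)⟩,
  ⟨(nat_lit 0), (nat_lit 2), (nat_lit 28), (nat_lit 3), (nat_lit 1), (nat_lit 3), (nat_lit 98), (nat_lit 24), (nat_lit 72), (nat_lit 96)⟩,
  ⟨(nat_lit 2), (nat_lit 1), (nat_lit 28), (nat_lit 3), (nat_lit 1), (nat_lit 9), (nat_lit 98), (nat_lit 23), (nat_lit 69), (nat_lit 90)⟩,
  ⟨(nat_lit 3), (nat_lit 1), (nat_lit 23), (nat_lit 8), (nat_lit 1), (nat_lit 27), (nat_lit 98), (nat_lit 18), (nat_lit 144), (nat_lit 72)⟩,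
  ⟨(nat_lit 4), (nat_lit 1), (nat_lit 23), (nat_lit 8), (nat_lit 1), (nat_lit 81), (nat_lit 98), (nat_lit 5), (nat_lit 40), (nat_lit 18)⟩]

theorem k1_0 : AllB (okS k1 [t1]) k1_0_l :=
  ⟨by decide +kernel,
  by decide +kernel,
  by decide +kernel,
  by decide +kernel,
  by decide +kernel,
  by decide +kernel,
  by decide +kernel,
  by decide +kernel,
  by decide +kernel,
  by decide +kernel,
  by decide +kernel,
  trivial⟩

noncomputable def k2_0_l : List Gp := [⟨(nat_lit 0), (nat_lit 10), (nat_lit 0), (nat_lit 11), (nat_lit 1), (nat_lit 7), (nat_lit 38), (nat_lit 8), (nat_lit 88), (nat_lit 32)⟩,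
  ⟨(nat_lit 0), (nat_lit 2), (nat_lit 11), (nat_lit 7), (nat_lit 1), (nat_lit 7), (nat_lit 59), (nat_lit 14), (nat_lit 98), (nat_lit 53)⟩,
  ⟨(nat_lit 2), (nat_lit 5), (nat_lit 11), (nat_lit 7), (nat_lit 1), (nat_lit 15), (nat_lit 59), (nat_lit 12), (nat_lit 84), (nat_lit 45)⟩,
  ⟨(nat_lit 7), (nat_lit 4), (nat_lit 11), (nat_lit 7), (nat_lit 1), (nat_lit 27), (nat_lit 59), (nat_lit 9), (nat_lit 63), (nat_lit 33)⟩,
  ⟨(nat_lit 0), (nat_lit 2), (nat_lit 18), (nat_lit 11), (nat_lit 1), (nat_lit 7), (nat_lit 75), (nat_lit 18), (nat_lit 198), (nat_lit 69)⟩,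
  ⟨(nat_lit 2), (nat_lit 3), (nat_lit 18), (nat_lit 4), (nat_lit 1), (nat_lit 15), (nat_lit 67), (nat_lit 14), (nat_lit 56), (nat_lit 53)⟩,
  ⟨(nat_lit 5), (nat_lit 2), (nat_lit 18), (nat_lit 4), (nat_lit 1), (nat_lit 21), (nat_lit 67), (nat_lit 12), (nat_lit 48), (nat_lit 47)⟩,
  ⟨(nat_lit 2), (nat_lit 3), (nat_lit 22), (nat_lit 7), (nat_lit 1), (nat_lit 15), (nat_lit 75), (nat_lit 16), (nat_lit 112), (nat_lit 61)⟩,
  ⟨(nat_lit 5), (nat_lit 2), (nat_lit 22), (nat_lit 7), (nat_lit 1), (nat_lit 21), (nat_lit 75), (nat_lit 14), (nat_lit 98), (nat_lit 55)⟩,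
  ⟨(nat_lit 7), (nat_lit 3), (nat_lit 18), (nat_lit 11), (nat_lit 1), (nat_lit 27), (nat_lit 75), (nat_lit 13), (nat_lit 143), (nat_lit 49)⟩,
  ⟨(nat_lit 10), (nat_lit 1), (nat_lit 18), (nat_lit 11), (nat_lit 1), (nat_lit 45), (nat_lit 75), (nat_lit 8), (nat_lit 88), (nat_lit 31)⟩,
  ⟨(nat_lit 0), (nat_lit 2), (nat_lit 29), (nat_lit 6), (nat_lit 1), (nat_lit 7), (nat_lit 90), (nat_lit 21), (nat_lit 126), (nat_lit 84)⟩,
  ⟨(nat_lit 2), (nat_lit 3), (nat_lit 29), (nat_lit 3), (nat_lit 1), (nat_lit 15), (nat_lit 84), (nat_lit 18), (nat_lit 55), (nat_lit 70)⟩,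
  ⟨(nat_lit 5), (nat_lit 2), (nat_lit 29), (nat_lit 3), (nat_lit 1), (nat_lit 21), (nat_lit 84), (nat_lit 16), (nat_lit 48), (nat_lit 64)⟩,
  ⟨(nat_lit 2), (nat_lit 3), (nat_lit 32), (nat_lit 3), (nat_lit 1), (nat_lit 15), (nat_lit 90), (nat_lit 19), (nat_lit 58), (nat_lit 76)⟩,
  ⟨(nat_lit 5), (nat_lit 2), (nat_lit 32), (nat_lit 3), (nat_lit 1), (nat_lit 21), (nat_lit 90), (nat_lit 18), (nat_lit 54), (nat_lit 70)⟩,
  ⟨(nat_lit 0), (nat_lit 2), (nat_lit 35), (nat_lit 4), (nat_lit 1), (nat_lit 7), (nat_lit 97), (nat_lit 23), (nat_lit 92), (nat_lit 91)⟩,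
  ⟨(nat_lit 0), (nat_lit 2), (nat_lit 39), (nat_lit 3), (nat_lit 1), (nat_lit 7), (nat_lit 100), (nat_lit 24), (nat_lit 72), (nat_lit 94)⟩,
  ⟨(nat_lit 2), (nat_lit 3), (nat_lit 35), (nat_lit 4), (nat_lit 1), (nat_lit 15), (nat_lit 97), (nat_lit 21), (nat_lit 84), (nat_lit 83)⟩,
  ⟨(nat_lit 2), (nat_lit 3), (nat_lit 39), (nat_lit 3), (nat_lit 1), (nat_lit 15), (nat_lit 100), (nat_lit 22), (nat_lit 67), (nat_lit 86)⟩,
  ⟨(nat_lit 5), (nat_lit 2), (nat_lit 35), (nat_lit 7), (nat_lit 1), (nat_lit 21), (nat_lit 100), (nat_lit 20), (nat_lit 140), (nat_lit 80)⟩,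
  ⟨(nat_lit 7), (nat_lit 3), (nat_lit 29), (nat_lit 6), (nat_lit 1), (nat_lit 27), (nat_lit 90), (nat_lit 16), (nat_lit 96), (nat_lit 64)⟩,
  ⟨(nat_lit 7), (nat_lit 3), (nat_lit 35), (nat_lit 7), (nat_lit 1), (nat_lit 27), (nat_lit 100), (nat_lit 19), (nat_lit 133), (nat_lit 74)⟩,
  ⟨(nat_lit 10), (nat_lit 1), (nat_lit 29), (nat_lit 13), (nat_lit 1), (nat_lit 45), (nat_lit 100), (nat_lit 14), (nat_lit 182), (nat_lit 56)⟩,
  ⟨(nat_lit 11), (nat_lit 2), (nat_lit 19), (nat_lit 11), (nat_lit 1), (nat_lit 63), (nat_lit 82), (nat_lit 5), (nat_lit 55), (nat_lit 20)⟩,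
  ⟨(nat_lit 11), (nat_lit 5), (nat_lit 30), (nat_lit 12), (nat_lit 1), (nat_lit 63), (nat_lit 100), (nat_lit 10), (nat_lit 120), (nat_lit 38)⟩]

theorem k2_0 : AllB (okS k2 [t2]) k2_0_l :=
  ⟨by decide +kernel,
  by decide +kernel,
  by decide +kernel,
  by decide +kernel,
  by decide +kernel,
  by decide +kernel,
  by decide +kernel,
  by decide +kernel,
  by decide +kernel,
  by decide +kernel,
  by decide +kernel,
  by decide +kernel,
  by decide +kernel,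
  by decide +kernel,
  by decide +kernel,
  by decide +kernel,
  by decide +kernel,
  by decide +kernel,
  by decide +kernel,
  by decide +kernel,
  by decide +kernel,
  by decide +kernel,
  by decide +kernel,
  by decide +kernel,
  by decide +kernel,
  by decide +kernel,
  trivial⟩

noncomputable def k3_0_l : List Gp := [⟨(nat_lit 0), (nat_lit 12), (nat_lit 0), (nat_lit 8), (nat_lit 1), (nat_lit 13), (nat_lit 38), (nat_lit 7), (nat_lit 85), (nat_lit 26)⟩,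
  ⟨(nat_lit 0), (nat_lit 6), (nat_lit 8), (nat_lit 8), (nat_lit 1), (nat_lit 13), (nat_lit 57), (nat_lit 12), (nat_lit 96), (nat_lit 45)⟩,
  ⟨(nat_lit 6), (nat_lit 6), (nat_lit 8), (nat_lit 8), (nat_lit 1), (nat_lit 24), (nat_lit 57), (nat_lit 9), (nat_lit 72), (nat_lit 34)⟩,
  ⟨(nat_lit 12), (nat_lit 4), (nat_lit 5), (nat_lit 11), (nat_lit 1), (nat_lit 36), (nat_lit 57), (nat_lit 6), (nat_lit 66), (nat_lit 22)⟩,
  ⟨(nat_lit 0), (nat_lit 6), (nat_lit 16), (nat_lit 7), (nat_lit 1), (nat_lit 13), (nat_lit 71), (nat_lit 15), (nat_lit 105), (nat_lit 59)⟩,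
  ⟨(nat_lit 0), (nat_lit 2), (nat_lit 23), (nat_lit 10), (nat_lit 1), (nat_lit 13), (nat_lit 80), (nat_lit 17), (nat_lit 170), (nat_lit 68)⟩,
  ⟨(nat_lit 2), (nat_lit 4), (nat_lit 23), (nat_lit 10), (nat_lit 1), (nat_lit 18), (nat_lit 80), (nat_lit 16), (nat_lit 160), (nat_lit 63)⟩,
  ⟨(nat_lit 6), (nat_lit 6), (nat_lit 16), (nat_lit 7), (nat_lit 1), (nat_lit 24), (nat_lit 71), (nat_lit 12), (nat_lit 84), (nat_lit 48)⟩,
  ⟨(nat_lit 6), (nat_lit 3), (nat_lit 23), (nat_lit 10), (nat_lit 1), (nat_lit 24), (nat_lit 80), (nat_lit 15), (nat_lit 150), (nat_lit 57)⟩,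
  ⟨(nat_lit 9), (nat_lit 3), (nat_lit 23), (nat_lit 10), (nat_lit 1), (nat_lit 30), (nat_lit 80), (nat_lit 13), (nat_lit 130), (nat_lit 51)⟩,
  ⟨(nat_lit 0), (nat_lit 2), (nat_lit 33), (nat_lit 7), (nat_lit 1), (nat_lit 13), (nat_lit 90), (nat_lit 20), (nat_lit 140), (nat_lit 78)⟩,
  ⟨(nat_lit 2), (nat_lit 4), (nat_lit 33), (nat_lit 4), (nat_lit 1), (nat_lit 18), (nat_lit 86), (nat_lit 18), (nat_lit 73), (nat_lit 69)⟩,
  ⟨(nat_lit 2), (nat_lit 2), (nat_lit 37), (nat_lit 3), (nat_lit 1), (nat_lit 18), (nat_lit 90), (nat_lit 19), (nat_lit 57), (nat_lit 73)⟩,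
  ⟨(nat_lit 4), (nat_lit 2), (nat_lit 37), (nat_lit 3), (nat_lit 1), (nat_lit 20), (nat_lit 90), (nat_lit 18), (nat_lit 54), (nat_lit 71)⟩,
  ⟨(nat_lit 0), (nat_lit 2), (nat_lit 40), (nat_lit 3), (nat_lit 1), (nat_lit 13), (nat_lit 96), (nat_lit 21), (nat_lit 63), (nat_lit 84)⟩,
  ⟨(nat_lit 0), (nat_lit 2), (nat_lit 43), (nat_lit 4), (nat_lit 1), (nat_lit 13), (nat_lit 100), (nat_lit 22), (nat_lit 88), (nat_lit 88)⟩,
  ⟨(nat_lit 2), (nat_lit 2), (nat_lit 40), (nat_lit 3), (nat_lit 1), (nat_lit 18), (nat_lit 96), (nat_lit 20), (nat_lit 60), (nat_lit 79)⟩,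
  ⟨(nat_lit 4), (nat_lit 2), (nat_lit 40), (nat_lit 3), (nat_lit 1), (nat_lit 20), (nat_lit 96), (nat_lit 20), (nat_lit 60), (nat_lit 77)⟩,
  ⟨(nat_lit 2), (nat_lit 2), (nat_lit 43), (nat_lit 4), (nat_lit 1), (nat_lit 18), (nat_lit 100), (nat_lit 21), (nat_lit 84), (nat_lit 83)⟩,
  ⟨(nat_lit 4), (nat_lit 2), (nat_lit 43), (nat_lit 4), (nat_lit 1), (nat_lit 20), (nat_lit 100), (nat_lit 21), (nat_lit 84), (nat_lit 81)⟩,
  ⟨(nat_lit 6), (nat_lit 3), (nat_lit 33), (nat_lit 7), (nat_lit 1), (nat_lit 24), (nat_lit 90), (nat_lit 17), (nat_lit 119), (nat_lit 67)⟩,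
  ⟨(nat_lit 9), (nat_lit 3), (nat_lit 33), (nat_lit 7), (nat_lit 1), (nat_lit 30), (nat_lit 90), (nat_lit 16), (nat_lit 112), (nat_lit 61)⟩,
  ⟨(nat_lit 6), (nat_lit 3), (nat_lit 40), (nat_lit 3), (nat_lit 1), (nat_lit 24), (nat_lit 96), (nat_lit 19), (nat_lit 58), (nat_lit 73)⟩,
  ⟨(nat_lit 6), (nat_lit 3), (nat_lit 43), (nat_lit 4), (nat_lit 1), (nat_lit 24), (nat_lit 100), (nat_lit 20), (nat_lit 80), (nat_lit 77)⟩,
  ⟨(nat_lit 9), (nat_lit 3), (nat_lit 40), (nat_lit 7), (nat_lit 1), (nat_lit 30), (nat_lit 100), (nat_lit 18), (nat_lit 126), (nat_lit 71)⟩,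
  ⟨(nat_lit 12), (nat_lit 2), (nat_lit 16), (nat_lit 17), (nat_lit 1), (nat_lit 36), (nat_lit 80), (nat_lit 12), (nat_lit 204), (nat_lit 45)⟩,
  ⟨(nat_lit 14), (nat_lit 2), (nat_lit 16), (nat_lit 17), (nat_lit 1), (nat_lit 54), (nat_lit 80), (nat_lit 7), (nat_lit 119), (nat_lit 27)⟩,
  ⟨(nat_lit 12), (nat_lit 2), (nat_lit 33), (nat_lit 7), (nat_lit 1), (nat_lit 36), (nat_lit 90), (nat_lit 14), (nat_lit 98), (nat_lit 55)⟩,
  ⟨(nat_lit 12), (nat_lit 2), (nat_lit 40), (nat_lit 7), (nat_lit 1), (nat_lit 36), (nat_lit 100), (nat_lit 17), (nat_lit 119), (nat_lit 65)⟩,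
  ⟨(nat_lit 14), (nat_lit 2), (nat_lit 33), (nat_lit 14), (nat_lit 1), (nat_lit 54), (nat_lit 100), (nat_lit 12), (nat_lit 168), (nat_lit 47)⟩,
  ⟨(nat_lit 16), (nat_lit 7), (nat_lit 15), (nat_lit 16), (nat_lit 1), (nat_lit 56), (nat_lit 78), (nat_lit 6), (nat_lit 96), (nat_lit 23)⟩,
  ⟨(nat_lit 16), (nat_lit 7), (nat_lit 31), (nat_lit 8), (nat_lit 1), (nat_lit 56), (nat_lit 88), (nat_lit 9), (nat_lit 72), (nat_lit 33)⟩,
  ⟨(nat_lit 16), (nat_lit 3), (nat_lit 39), (nat_lit 8), (nat_lit 1), (nat_lit 56), (nat_lit 100), (nat_lit 12), (nat_lit 96), (nat_lit 45)⟩,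
  ⟨(nat_lit 19), (nat_lit 4), (nat_lit 39), (nat_lit 8), (nat_lit 1), (nat_lit 69), (nat_lit 100), (nat_lit 8), (nat_lit 64), (nat_lit 32)⟩,
  ⟨(nat_lit 23), (nat_lit 8), (nat_lit 35), (nat_lit 12), (nat_lit 1), (nat_lit 84), (nat_lit 100), (nat_lit 5), (nat_lit 60), (nat_lit 17)⟩]

theorem k3_0 : AllB (okS k3 [t3]) k3_0_l :=
  ⟨by decide +kernel,
  by decide +kernel,
  by decide +kernel,
  by decide +kernel,
  by decide +kernel,
  by decide +kernel,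
  by decide +kernel,
  by decide +kernel,
  by decide +kernel,
  by decide +kernel,
  by decide +kernel,
  by decide +kernel,
  by decide +kernel,
  by decide +kernel,
  by decide +kernel,
  by decide +kernel,
  by decide +kernel,
  by decide +kernel,
  by decide +kernel,
  by decide +kernel,
  by decide +kernel,
  by decide +kernel,
  by decide +kernel,
  by decide +kernel,
  by decide +kernel,
  by decide +kernel,
  by decide +kernel,
  by decide +kernel,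
  by decide +kernel,
  by decide +kernel,
  by decide +kernel,
  by decide +kernel,
  by decide +kernel,
  by decide +kernel,
  by decide +kernel,
  trivial⟩

noncomputable def k4_0_l : List Gp := [⟨(nat_lit 0), (nat_lit 11), (nat_lit 0), (nat_lit 9), (nat_lit 1), (nat_lit 18), (nat_lit 47), (nat_lit 8), (nat_lit 89), (nat_lit 30)⟩,
  ⟨(nat_lit 0), (nat_lit 5), (nat_lit 9), (nat_lit 4), (nat_lit 1), (nat_lit 18), (nat_lit 66), (nat_lit 13), (nat_lit 66), (nat_lit 49)⟩,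
  ⟨(nat_lit 5), (nat_lit 6), (nat_lit 9), (nat_lit 4), (nat_lit 1), (nat_lit 30), (nat_lit 66), (nat_lit 10), (nat_lit 61), (nat_lit 37)⟩,
  ⟨(nat_lit 11), (nat_lit 7), (nat_lit 6), (nat_lit 7), (nat_lit 1), (nat_lit 42), (nat_lit 66), (nat_lit 7), (nat_lit 50), (nat_lit 25)⟩,
  ⟨(nat_lit 0), (nat_lit 2), (nat_lit 13), (nat_lit 7), (nat_lit 1), (nat_lit 18), (nat_lit 75), (nat_lit 15), (nat_lit 105), (nat_lit 58)⟩,
  ⟨(nat_lit 2), (nat_lit 3), (nat_lit 13), (nat_lit 7), (nat_lit 1), (nat_lit 24), (nat_lit 75), (nat_lit 13), (nat_lit 91), (nat_lit 52)⟩,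
  ⟨(nat_lit 0), (nat_lit 2), (nat_lit 20), (nat_lit 9), (nat_lit 1), (nat_lit 18), (nat_lit 82), (nat_lit 17), (nat_lit 153), (nat_lit 65)⟩,
  ⟨(nat_lit 2), (nat_lit 3), (nat_lit 20), (nat_lit 9), (nat_lit 1), (nat_lit 24), (nat_lit 82), (nat_lit 15), (nat_lit 135), (nat_lit 59)⟩,
  ⟨(nat_lit 5), (nat_lit 6), (nat_lit 13), (nat_lit 7), (nat_lit 1), (nat_lit 30), (nat_lit 75), (nat_lit 12), (nat_lit 84), (nat_lit 46)⟩,
  ⟨(nat_lit 5), (nat_lit 3), (nat_lit 20), (nat_lit 9), (nat_lit 1), (nat_lit 30), (nat_lit 82), (nat_lit 14), (nat_lit 126), (nat_lit 53)⟩,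
  ⟨(nat_lit 8), (nat_lit 3), (nat_lit 20), (nat_lit 9), (nat_lit 1), (nat_lit 36), (nat_lit 82), (nat_lit 12), (nat_lit 108), (nat_lit 47)⟩,
  ⟨(nat_lit 0), (nat_lit 2), (nat_lit 29), (nat_lit 7), (nat_lit 1), (nat_lit 18), (nat_lit 92), (nat_lit 19), (nat_lit 133), (nat_lit 75)⟩,
  ⟨(nat_lit 2), (nat_lit 3), (nat_lit 29), (nat_lit 7), (nat_lit 1), (nat_lit 24), (nat_lit 92), (nat_lit 18), (nat_lit 126), (nat_lit 69)⟩,
  ⟨(nat_lit 0), (nat_lit 2), (nat_lit 36), (nat_lit 4), (nat_lit 1), (nat_lit 18), (nat_lit 100), (nat_lit 21), (nat_lit 84), (nat_lit 83)⟩,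
  ⟨(nat_lit 2), (nat_lit 3), (nat_lit 36), (nat_lit 4), (nat_lit 1), (nat_lit 24), (nat_lit 100), (nat_lit 20), (nat_lit 80), (nat_lit 77)⟩,
  ⟨(nat_lit 5), (nat_lit 6), (nat_lit 29), (nat_lit 7), (nat_lit 1), (nat_lit 30), (nat_lit 92), (nat_lit 16), (nat_lit 112), (nat_lit 63)⟩,
  ⟨(nat_lit 5), (nat_lit 3), (nat_lit 36), (nat_lit 4), (nat_lit 1), (nat_lit 30), (nat_lit 100), (nat_lit 18), (nat_lit 72), (nat_lit 71)⟩,
  ⟨(nat_lit 8), (nat_lit 3), (nat_lit 36), (nat_lit 4), (nat_lit 1), (nat_lit 36), (nat_lit 100), (nat_lit 17), (nat_lit 68), (nat_lit 65)⟩,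
  ⟨(nat_lit 11), (nat_lit 4), (nat_lit 13), (nat_lit 16), (nat_lit 1), (nat_lit 42), (nat_lit 82), (nat_lit 11), (nat_lit 176), (nat_lit 41)⟩,
  ⟨(nat_lit 15), (nat_lit 3), (nat_lit 13), (nat_lit 16), (nat_lit 1), (nat_lit 54), (nat_lit 82), (nat_lit 8), (nat_lit 128), (nat_lit 29)⟩,
  ⟨(nat_lit 11), (nat_lit 4), (nat_lit 29), (nat_lit 7), (nat_lit 1), (nat_lit 42), (nat_lit 92), (nat_lit 13), (nat_lit 91), (nat_lit 51)⟩,
  ⟨(nat_lit 11), (nat_lit 4), (nat_lit 36), (nat_lit 4), (nat_lit 1), (nat_lit 42), (nat_lit 100), (nat_lit 15), (nat_lit 61), (nat_lit 59)⟩,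
  ⟨(nat_lit 15), (nat_lit 3), (nat_lit 29), (nat_lit 11), (nat_lit 1), (nat_lit 54), (nat_lit 100), (nat_lit 12), (nat_lit 132), (nat_lit 47)⟩,
  ⟨(nat_lit 18), (nat_lit 11), (nat_lit 11), (nat_lit 16), (nat_lit 1), (nat_lit 60), (nat_lit 80), (nat_lit 6), (nat_lit 96), (nat_lit 21)⟩,
  ⟨(nat_lit 18), (nat_lit 11), (nat_lit 27), (nat_lit 7), (nat_lit 1), (nat_lit 60), (nat_lit 87), (nat_lit 7), (nat_lit 78), (nat_lit 28)⟩]

theorem k4_0 : AllB (okS k4 [t4]) k4_0_l :=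
  ⟨by decide +kernel,
  by decide +kernel,
  by decide +kernel,
  by decide +kernel,
  by decide +kernel,
  by decide +kernel,
  by decide +kernel,
  by decide +kernel,
  by decide +kernel,
  by decide +kernel,
  by decide +kernel,
  by decide +kernel,
  by decide +kernel,
  by decide +kernel,
  by decide +kernel,
  by decide +kernel,
  by decide +kernel,
  by decide +kernel,
  by decide +kernel,
  by decide +kernel,
  by decide +kernel,
  by decide +kernel,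
  by decide +kernel,
  by decide +kernel,
  by decide +kernel,
  trivial⟩

end Vale.Agent.P236KE.Y100
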