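import Vale.Agent.P236KE.Y100.Cnt
import Vale.Agent.P236KE.Yr
import Vale.Agent.P236KE.Y100.K0
import Vale.Agent.P236KE.Y100.G0
import Vale.Agent.P236KE.Y100.G1
import Vale.Agent.P236KE.Y100.K1
import Vale.Agent.P236KE.Y100.G2

/-!
# P236KE / Y100 : assembly (generated)
-/

set_option maxRecDepth 100000

namespace Vale.Agent.P236KE.Y100

theorem mid0 : midOk m0_t (res.d 1) (res.n 1) 100 = true := by decide +kernel

theorem lo0 (up : DLL) (dup : ℕ) : res.Lo ⟨cf3, d0, up, m0, g0, dup, (nat_lit 26), (nat_lit 208), (nat_lit 100)⟩ 100 0 :=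
  ⟨rfl, rfl, rfl, rfl, rfl, rfl, ⟨_, m0_eq, mid0⟩,
    (by decide : 100 < 117), (by decide : 26 ≤ 32), (by decide : 208 ≤ 300)⟩

theorem kq0 : ∃ k t gs, res.KY 100 0 k t gs :=
  ⟨k0, t0, _, lo0 d1 g2, rfl, rfl, rfl, rfl, rfl, by decide +kernel, k0_0, by decide +kernel⟩

theorem cq0 : res.CQ 100 zs hs ng cs 0 :=
  ⟨⟨_, _, lo0 e0 h0, rfl, g0_0, by decide +kernel, by decide +kernel⟩, by decide +kernel⟩

theorem ck0 : Vale.Agent.P236K2.ckD (2 ^ 28) (cs 1) (cs 0) (Sq.pn (res.n 0) (res.d 0) fun _ => []) 101 = true := by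
  decide +kernel

theorem mid1 : midOk m1_t (res.d 2) (res.n 2) 100 = true := by decide +kernel

theorem lo1 (up : DLL) (dup : ℕ) : res.Lo ⟨cf3, d1, up, m1, g1, dup, (nat_lit 26), (nat_lit 208), (nat_lit 100)⟩ 100 1 :=
  ⟨rfl, rfl, rfl, rfl, rfl, rfl, ⟨_, m1_eq, mid1⟩,
    (by decide : 100 < 117), (by decide : 26 ≤ 32), (by decide : 208 ≤ 300)⟩

theorem kq1 : ∃ k t gs, res.KY 100 1 k t gs :=
  ⟨k1, t1, _, lo1 d2 g3, rfl, rfl, rfl, rfl, rfl, by decide +kernel, k1_0, by decide +kernel⟩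

theorem cq1 : res.CQ 100 zs hs ng cs 1 :=
  ⟨⟨_, _, lo1 e1 h1, rfl, g1_0, by decide +kernel, by decide +kernel⟩, by decide +kernel⟩

theorem ck1 : Vale.Agent.P236K2.ckD (2 ^ 28) (cs 2) (cs 1) (Sq.pn (res.n 1) (res.d 1) fun _ => []) 101 = true := by
  decide +kernel

theorem mid2 : midOk m2_t (res.d 3) (res.n 3) 100 = true := by decide +kernel

theorem lo2 (up : DLL) (dup : ℕ) : res.Lo ⟨cf3, d2, up, m2, g2, dup, (nat_lit 26), (nat_lit 208), (nat_lit 100)⟩ 100 2 :=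
  ⟨rfl, rfl, rfl, rfl, rfl, rfl, ⟨_, m2_eq, mid2⟩,
    (by decide : 100 < 117), (by decide : 26 ≤ 32), (by decide : 208 ≤ 300)⟩

theorem kq2 : ∃ k t gs, res.KY 100 2 k t gs :=
  ⟨k2, t2, _, lo2 d3 g4, rfl, rfl, rfl, rfl, rfl, by decide +kernel, k2_0, by decide +kernel⟩

theorem cq2 : res.CQ 100 zs hs ng cs 2 :=
  ⟨⟨_, _, lo2 e2 h2, rfl, g2_0, by decide +kernel, by decide +kernel⟩, by decide +kernel⟩

theorem ck2 : Vale.Agent.P236K2.ckD (2 ^ 28) (cs 3) (cs 2) (Sq.pn (res.n 2) (res.d 2) fun _ => []) 101 = true := by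
  decide +kernel

theorem mid3 : midOk m3_t (res.d 4) (res.n 4) 100 = true := by decide +kernel

theorem lo3 (up : DLL) (dup : ℕ) : res.Lo ⟨cf3, d3, up, m3, g3, dup, (nat_lit 26), (nat_lit 208), (nat_lit 100)⟩ 100 3 :=
  ⟨rfl, rfl, rfl, rfl, rfl, rfl, ⟨_, m3_eq, mid3⟩,
    (by decide : 100 < 117), (by decide : 26 ≤ 32), (by decide : 208 ≤ 300)⟩

theorem kq3 : ∃ k t gs, res.KY 100 3 k t gs :=
  ⟨k3, t3, _, lo3 d4 g5, rfl, rfl, rfl, rfl, rfl, by decide +kernel, k3_0, by decide +kernel⟩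

theorem cq3 : res.CQ 100 zs hs ng cs 3 :=
  ⟨⟨_, _, lo3 e3 h3, rfl, (AllB.append g3_0 g3_1), by decide +kernel, by decide +kernel⟩, by decide +kernel⟩

theorem ck3 : Vale.Agent.P236K2.ckD (2 ^ 28) (cs 4) (cs 3) (Sq.pn (res.n 3) (res.d 3) fun _ => []) 101 = true := by
  decide +kernel

theorem mid4 : midOk m4_t (res.d 5) (res.n 5) 100 = true := by decide +kernel

theorem lo4 (up : DLL) (dup : ℕ) : res.Lo ⟨cf3, d4, up, m4, g4, dup, (nat_lit 26), (nat_lit 208), (nat_lit 100)⟩ 100 4 :=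
  ⟨rfl, rfl, rfl, rfl, rfl, rfl, ⟨_, m4_eq, mid4⟩,
    (by decide : 100 < 117), (by decide : 26 ≤ 32), (by decide : 208 ≤ 300)⟩

theorem kq4 : ∃ k t gs, res.KY 100 4 k t gs :=
  ⟨k4, t4, _, lo4 d5 g6, rfl, rfl, rfl, rfl, rfl, by decide +kernel, (AllB.append k4_0 k4_1), by decide +kernel⟩

theorem cq4 : res.CQ 100 zs hs ng cs 4 :=
  ⟨⟨_, _, lo4 e4 h4, rfl, (AllB.append g4_0 g4_1), by decide +kernel, by decide +kernel⟩, by decide +kernel⟩

theorem ck4 : Vale.Agent.P236K2.ckD (2 ^ 28) (cs 5) (cs 4) (Sq.pn (res.n 4) (res.d 4) fun _ => []) 101 = true := by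
  decide +kernel

end Vale.Agent.P236KE.Y100
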